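import Vale.Agent.P086.System

/-!
P085, carriers: the trace of a product of at most `2 r` factors is bounded by the moments
`τ ((a⋆ a) ^ r)` of the factors, for `r` a power of two.
-/

open scoped InnerProductSpace

namespace VP085.Carrier

open VP086

variable {A : Type} [CStarAlgebra A] {H : Type} [NormedAddCommGroup H] [InnerProductSpace ℂ H]
  (S : Std A H)

theorem tau_zero : S.τ 0 = 0 := by simp [Std.τ]

theorem tau_add (x y : A) : S.τ (x + y) = S.τ x + S.τ y := by simp [Std.τ]

theorem tau_sub (x y : A) : S.τ (x - y) = S.τ x - S.τ y := by simp [Std.τ]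

theorem tau_smul (c : ℂ) (x : A) : S.τ (c • x) = c * S.τ x := by simp [Std.τ]

theorem tau_one : S.τ 1 = 1 := by
  rw [Std.τ, inner_self_eq_norm_sq_to_K, S.norm_one]
  simp

theorem tau_sum {κ : Type} (s : Finset κ) (f : κ → A) :
    S.τ (∑ k ∈ s, f k) = ∑ k ∈ s, S.τ (f k) := by
  classical
  induction s using Finset.induction_on with
  | empty => simp [tau_zero]
  | insert a s ha ih => rw [Finset.sum_insert ha, Finset.sum_insert ha, tau_add, ih]

theorem tau_mul (a b : A) : S.τ (a * b) = ⟪S.ι (star a), S.ι b⟫_ℂ := by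
  rw [S.inner_ι, star_star]
  rfl

theorem tau_star_mul (y : A) : S.τ (star y * y) = ((‖S.ι y‖ ^ 2 : ℝ) : ℂ) := by
  rw [tau_mul, star_star, inner_self_eq_norm_sq_to_K]
  norm_cast

theorem tau_star_mul_re (y : A) : (S.τ (star y * y)).re = ‖S.ι y‖ ^ 2 := by
  rw [tau_star_mul, Complex.ofReal_re]

theorem norm_star_eq (x : A) : ‖S.ι (star x)‖ = ‖S.ι x‖ := by
  have e : (S.τ (star (star x) * star x)).re = (S.τ (star x * x)).re := by
    rw [star_star]
    exact congrArg Complex.re (S.tau_comm x (star x))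
  rw [tau_star_mul_re, tau_star_mul_re] at e
  exact (pow_left_inj₀ (norm_nonneg _) (norm_nonneg _) two_ne_zero).1 e

theorem norm_tau_mul_le (a b : A) : ‖S.τ (a * b)‖ ≤ ‖S.ι a‖ * ‖S.ι b‖ := by
  rw [tau_mul, ← norm_star_eq S a]
  exact norm_inner_le_norm _ _

theorem norm_ι_le (a : A) : ‖S.ι a‖ ≤ ‖a‖ := by
  simpa [S.norm_one] using S.left_le a 1

theorem norm_tau_le (a : A) : ‖S.τ a‖ ≤ ‖a‖ := by
  refine (norm_inner_le_norm _ _).trans ?_
  rw [S.norm_one, one_mul]
  exact norm_ι_le S a

theorem tau_comm' (a b : A) : S.τ (a * b) = S.τ (b * a) := S.tau_comm a b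

theorem pow_mul_swap {M : Type} [Monoid M] (a b : M) (k : ℕ) :
    (a * b) ^ (k + 1) = a * (b * a) ^ k * b := by
  induction k with
  | zero => simp
  | succ k ih =>
    rw [pow_succ' (a * b), ih, pow_succ' (b * a)]
    simp [mul_assoc]

theorem tau_pow_swap (a b : A) (r : ℕ) : S.τ ((a * b) ^ r) = S.τ ((b * a) ^ r) := by
  cases r with
  | zero => simp
  | succ k => rw [pow_mul_swap a b k, mul_assoc, tau_comm' S a, mul_assoc, ← pow_succ]

/-- `k` copies of `b⋆, b`. -/
def run (b : A) : ℕ → List A
  | 0 => []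
  | k + 1 => star b :: b :: run b k

theorem run_prod (b : A) (k : ℕ) : (run b k).prod = (star b * b) ^ k := by
  induction k with
  | zero => simp [run]
  | succ k ih => simp [run, ih, pow_succ', mul_assoc]

theorem run_length (b : A) (k : ℕ) : (run b k).length = 2 * k := by
  induction k with
  | zero => rfl
  | succ k ih => simp [run, ih]; ring

theorem mem_run {b x : A} {k : ℕ} (hx : x ∈ run b k) : x = star b ∨ x = b := by
  induction k with
  | zero => simp [run] at hx
  | succ k ih => simp [run] at hx; tauto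

theorem prod_star (X : List A) : ((X.map star).reverse).prod = star X.prod := by
  induction X with
  | nil => simp
  | cons a X ih => simp [ih]

/-- The case of normalised letters and full length. -/
theorem word_le_one (m : ℕ) (hm : 1 ≤ m) (v : List A) (hv : v.length = 2 ^ (m + 1))
    (h : ∀ a ∈ v, (S.τ ((star a * a) ^ 2 ^ m)).re ≤ 1) : ‖S.τ v.prod‖ ≤ 1 := by
  classical
  set r := 2 ^ m with hr
  have hr2 : 2 ^ (m + 1) = 2 * r := by rw [pow_succ, hr]; ring
  have hr0 : 1 ≤ r := Nat.one_le_two_pow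
  set Λ : Finset A := (v ++ v.map star).toFinset with hΛ
  have hΛs : ∀ a ∈ Λ, star a ∈ Λ := by
    intro a ha
    simp [hΛ] at ha ⊢
    rcases ha with ha | ⟨b, hb, rfl⟩
    · exact Or.inr ha
    · exact Or.inl (by simpa using hb)
  have hΛb : ∀ a ∈ Λ, (S.τ ((star a * a) ^ r)).re ≤ 1 := by
    intro a ha
    simp [hΛ] at ha
    rcases ha with ha | ⟨b, hb, rfl⟩
    · exact h a ha
    · rw [star_star, tau_pow_swap]; exact h b hb
  obtain ⟨a₀, ha₀⟩ : ∃ a, a ∈ v := List.exists_mem_of_ne_nil v (by
    intro e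
    rw [e, List.length_nil, hr2] at hv
    omega)
  have ha₀' : a₀ ∈ Λ := by simp [hΛ, ha₀]
  obtain ⟨g, -, hg⟩ := Finset.exists_max_image (Finset.univ : Finset (Fin (2 * r) → {x // x ∈ Λ}))
    (fun g => ‖S.τ (List.ofFn fun k => (g k : A)).prod‖) ⟨fun _ => ⟨a₀, ha₀'⟩, Finset.mem_univ _⟩
  set M := ‖S.τ (List.ofFn fun k => (g k : A)).prod‖ with hM
  have hmax : ∀ w : List A, w.length = 2 * r → (∀ a ∈ w, a ∈ Λ) → ‖S.τ w.prod‖ ≤ M := by
    intro w hw hwΛ
    have := hg (fun k => ⟨w[(k : ℕ)]'(by omega), hwΛ _ (List.getElem_mem _)⟩) (Finset.mem_univ _)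
    refine le_of_eq_of_le ?_ this
    congr 3
    exact List.ext_getElem (by simp [hw]) (by simp)
  have hvM : ‖S.τ v.prod‖ ≤ M := hmax v (hv.trans hr2) fun a ha => by simp [hΛ, ha]
  refine hvM.trans ?_
  by_contra hM1
  push Not at hM1
  -- the symmetrised first half is again maximal
  have sym : ∀ X Y : List A, X.length = r → Y.length = r → (∀ a ∈ X, a ∈ Λ) → (∀ a ∈ Y, a ∈ Λ) →
      M ≤ ‖S.τ (X ++ Y).prod‖ → M ≤ ‖S.τ ((X.map star).reverse ++ X).prod‖ := by
    intro X Y hX hY hXΛ hYΛ hMw
    have h1 := norm_tau_mul_le S X.prod Y.prod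
    rw [← List.prod_append] at h1
    have h2 : ‖S.ι Y.prod‖ ^ 2 ≤ M := by
      have := hmax ((Y.map star).reverse ++ Y) (by simp [hY]; ring) (by
        simp only [List.mem_append, List.mem_reverse, List.mem_map]
        rintro a (⟨b, hb, rfl⟩ | ha)
        exacts [hΛs b (hYΛ b hb), hYΛ a ha])
      rwa [List.prod_append, prod_star, tau_star_mul, Complex.norm_real, Real.norm_eq_abs,
        abs_of_nonneg (sq_nonneg _)] at this
    rw [List.prod_append, prod_star, tau_star_mul, Complex.norm_real, Real.norm_eq_abs,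
      abs_of_nonneg (sq_nonneg _)]
    have h3 : M ≤ ‖S.ι X.prod‖ * ‖S.ι Y.prod‖ := hMw.trans h1
    have h4 : M ^ 2 ≤ ‖S.ι X.prod‖ ^ 2 * M :=
      (pow_le_pow_left₀ (by positivity) h3 2).trans (by
        rw [mul_pow]; exact mul_le_mul_of_nonneg_left h2 (sq_nonneg _))
    nlinarith
  -- doubling runs
  have key : ∀ j ≤ m, ∃ b ∈ Λ, ∃ R : List A, (∀ a ∈ R, a ∈ Λ) ∧
      (run b (2 ^ j) ++ R).length = 2 * r ∧ M ≤ ‖S.τ (run b (2 ^ j) ++ R).prod‖ := by
    intro j
    induction j with
    | zero =>
      intro _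
      set w := List.ofFn fun k => (g k : A) with hw
      have hwl : w.length = 2 * r := by simp [hw]
      have hwΛ : ∀ a ∈ w, a ∈ Λ := by simp [hw]
      have hs := sym (w.take r) (w.drop r) (by simp [hwl]; omega) (by simp [hwl]; omega)
        (fun a ha => hwΛ a (List.mem_of_mem_take ha)) (fun a ha => hwΛ a (List.mem_of_mem_drop ha))
        (by rw [List.take_append_drop])
      obtain ⟨b, R', hbR⟩ : ∃ b R', w.take r = b :: R' :=
        List.exists_cons_of_length_pos (by simp [hwl]; omega)
      have hXΛ : ∀ a ∈ b :: R', a ∈ Λ := fun a ha =>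
        hwΛ a (List.mem_of_mem_take (hbR ▸ ha))
      have hlen : R'.length + 1 = r := by
        have := congrArg List.length hbR
        simp [hwl] at this
        omega
      rw [hbR] at hs
      refine ⟨b, hXΛ b (by simp), R' ++ (R'.map star).reverse, ?_, ?_, ?_⟩
      · simp only [List.mem_append, List.mem_reverse, List.mem_map]
        rintro a (ha | ⟨c, hc, rfl⟩)
        exacts [hXΛ a (List.mem_cons_of_mem _ ha), hΛs c (hXΛ c (List.mem_cons_of_mem _ hc))]
      · simp [run]; omega
      · refine hs.trans_eq (congrArg (fun z => ‖z‖) ?_)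
        rw [List.prod_append, List.prod_append, List.prod_append, prod_star, prod_star,
          ← mul_assoc _ R'.prod, tau_comm' S _ (star R'.prod), pow_zero]
        simp [run, mul_assoc]
    | succ j ih =>
      intro hj
      obtain ⟨b, hb, R, hR, hlen, hMR⟩ := ih (by omega)
      have hk : 2 * 2 ^ j ≤ r := by
        rw [← pow_succ', hr]; exact Nat.pow_le_pow_right (by norm_num) hj
      rw [List.length_append, run_length] at hlen
      set c := r - 2 * 2 ^ j with hc
      have hrun : ∀ a ∈ run b (2 ^ j), a ∈ Λ := fun a ha => by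
        rcases mem_run ha with rfl | rfl
        exacts [hΛs b hb, hb]
      have hs := sym (run b (2 ^ j) ++ R.take c) (R.drop c)
        (by simp [run_length]; omega) (by simp; omega)
        (by simp only [List.mem_append]; rintro a (ha | ha)
            exacts [hrun a ha, hR a (List.mem_of_mem_take ha)])
        (fun a ha => hR a (List.mem_of_mem_drop ha))
        (by rwa [List.append_assoc, List.take_append_drop])
      refine ⟨b, hb, R.take c ++ ((R.take c).map star).reverse, ?_, ?_, ?_⟩
      · simp only [List.mem_append, List.mem_reverse, List.mem_map]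
        rintro a (ha | ⟨d, hd, rfl⟩)
        exacts [hR a (List.mem_of_mem_take ha), hΛs d (hR d (List.mem_of_mem_take hd))]
      · simp [run_length, pow_succ]; omega
      · refine hs.trans_eq (congrArg (fun z => ‖z‖) ?_)
        have hsa : star ((star b * b) ^ 2 ^ j) = (star b * b) ^ 2 ^ j := by
          rw [star_pow, star_mul, star_star]
        simp only [List.prod_append, prod_star, star_mul, run_prod, hsa]
        rw [mul_assoc (star _), tau_comm' S (star _), pow_succ, mul_comm (2 ^ j) 2, two_mul, pow_add]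
        simp [mul_assoc]
  obtain ⟨b, hb, R, -, hlen, hMR⟩ := key m le_rfl
  rw [List.length_append, run_length] at hlen
  have hR0 : R = [] := List.eq_nil_of_length_eq_zero (by omega)
  subst hR0
  rw [List.append_nil, run_prod] at hMR
  obtain ⟨m', rfl⟩ : ∃ m', m = m' + 1 := ⟨m - 1, by omega⟩
  have e : (star b * b) ^ r = star ((star b * b) ^ 2 ^ m') * (star b * b) ^ 2 ^ m' := by
    rw [star_pow, star_mul, star_star, ← pow_add, hr, pow_succ, Nat.mul_two]
  have hb1 := hΛb b hb
  rw [e] at hMR hb1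
  rw [tau_star_mul, Complex.norm_real, Real.norm_eq_abs, abs_of_nonneg (sq_nonneg _)] at hMR
  rw [tau_star_mul_re] at hb1
  linarith

/-- The bound for short products of factors with bounded moments. -/
theorem word_bound (m : ℕ) (hm : 1 ≤ m) {β : ℝ} (hβ : 0 < β) (u : List A)
    (hu : u.length ≤ 2 ^ (m + 1))
    (h : ∀ a ∈ u, (S.τ ((star a * a) ^ 2 ^ m)).re ≤ β ^ 2 ^ (m + 1)) :
    ‖S.τ u.prod‖ ≤ β ^ u.length := by
  have hscale : ∀ v : List A, (v.map fun a => ((β⁻¹ : ℝ) : ℂ) • a).prod =
      ((β⁻¹ : ℝ) : ℂ) ^ v.length • v.prod := by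
    intro v
    induction v with
    | nil => simp
    | cons a v ih =>
      rw [List.map_cons, List.prod_cons, ih, List.prod_cons, List.length_cons, pow_succ',
        smul_mul_smul_comm]
  have h1 := word_le_one S m hm
    ((u.map fun a => ((β⁻¹ : ℝ) : ℂ) • a) ++ List.replicate (2 ^ (m + 1) - u.length) 1)
    (by simp; omega) (by
      intro a ha
      rcases List.mem_append.1 ha with ha | ha
      · obtain ⟨b, hb, rfl⟩ := List.mem_map.1 ha
        rw [star_smul, smul_mul_smul_comm, smul_pow, tau_smul, Complex.star_def,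
          Complex.conj_ofReal, ← Complex.ofReal_mul, ← Complex.ofReal_pow, Complex.re_ofReal_mul,
          ← pow_two, ← pow_mul, ← pow_succ']
        calc β⁻¹ ^ 2 ^ (m + 1) * _ ≤ β⁻¹ ^ 2 ^ (m + 1) * β ^ 2 ^ (m + 1) :=
              mul_le_mul_of_nonneg_left (h b hb) (by positivity)
          _ = 1 := by rw [← mul_pow, inv_mul_cancel₀ hβ.ne', one_pow]
      · rw [List.eq_of_mem_replicate ha]
        simp [tau_one])
  rw [List.prod_append, hscale, List.prod_replicate, one_pow, mul_one, tau_smul, norm_mul,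
    norm_pow, Complex.norm_real, Real.norm_eq_abs, abs_of_pos (inv_pos.2 hβ), inv_pow,
    inv_mul_le_iff₀ (by positivity), mul_one] at h1
  exact h1

end VP085.Carrier
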