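import Vale.Agent.P085.Defs
import Vale.Agent.P085.Carrier.Word

/-!
P085, carriers: levels of a chain. A level is a finite family of self-adjoint elements of norm at
most two, of mean zero, that scalarises a given finite set and nearly kills every single trace.
-/

namespace VP085.Carrier

open VP086 Filter Topology

/-- A sign. -/
def sg : Bool → ℂ
  | true => 1
  | false => -1

theorem sum_sg {κ : Type} [Fintype κ] [DecidableEq κ] (j l : κ) :
    ∑ ε : κ → Bool, sg (ε j) * sg (ε l) = if j = l then (Fintype.card (κ → Bool) : ℂ) else 0 := by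
  split_ifs with h
  · subst h
    have : ∀ b : Bool, sg b * sg b = 1 := fun b => by cases b <;> simp [sg]
    simp [this]
  · let e : (κ → Bool) ≃ (κ → Bool) := Function.Involutive.toPerm
      (fun ε => Function.update ε j (!ε j)) (fun ε => by
        funext x
        by_cases hx : x = j
        · subst hx; simp
        · simp [hx])
    have h1 := Equiv.sum_comp e (fun ε : κ → Bool => sg (ε j) * sg (ε l))
    have h2 : ∀ ε : κ → Bool, sg (e ε j) * sg (e ε l) = -(sg (ε j) * sg (ε l)) := fun ε => by
      show sg (Function.update ε j (!ε j) j) * sg (Function.update ε j (!ε j) l) = _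
      rw [Function.update_self, Function.update_of_ne (Ne.symm h)]
      cases ε j <;> simp [sg]
    simp only [h2, Finset.sum_neg_distrib] at h1
    exact CharZero.eq_neg_self_iff.1 h1.symm

theorem sum_norm_sq_sg {κ : Type} [Fintype κ] [DecidableEq κ] (x : κ → ℂ) :
    ∑ ε : κ → Bool, ‖∑ j, sg (ε j) * x j‖ ^ 2 =
      Fintype.card (κ → Bool) * ∑ j, ‖x j‖ ^ 2 := by
  have hs : ∀ b, (starRingEnd ℂ) (sg b) = sg b := fun b => by cases b <;> simp [sg]
  apply Complex.ofReal_injective
  push_cast
  simp only [← Complex.conj_mul', map_sum, map_mul, hs, Finset.sum_mul, Finset.mul_sum]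
  rw [Finset.sum_comm]
  refine Finset.sum_congr rfl fun j _ => ?_
  rw [Finset.sum_comm, Finset.sum_eq_single j]
  · calc _ = (∑ ε : κ → Bool, sg (ε j) * sg (ε j)) * ((starRingEnd ℂ) (x j) * x j) := by
          rw [Finset.sum_mul]
          exact Finset.sum_congr rfl fun _ _ => by ring
      _ = _ := by rw [sum_sg, if_pos rfl]
  · intro l _ hl
    calc _ = (∑ ε : κ → Bool, sg (ε j) * sg (ε l)) * ((starRingEnd ℂ) (x l) * x j) := by
          rw [Finset.sum_mul]
          exact Finset.sum_congr rfl fun _ _ => by ring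
      _ = 0 := by rw [sum_sg, if_neg (Ne.symm hl), zero_mul]
  · simp

variable {A : Type} [CStarAlgebra A] {H : Type} [NormedAddCommGroup H] [InnerProductSpace ℂ H]

/-- The mean of a finite family. -/
noncomputable def mean {κ E : Type} [Fintype κ] [AddCommMonoid E] [Module ℂ E] (f : κ → E) : E :=
  (Fintype.card κ : ℂ)⁻¹ • ∑ k, f k

/-- The mean of a finite family of real numbers. -/
noncomputable def rmean {κ : Type} [Fintype κ] (f : κ → ℝ) : ℝ :=
  (Fintype.card κ : ℝ)⁻¹ * ∑ k, f k

theorem mean_prod {κ κ' E : Type} [Fintype κ] [Fintype κ'] [AddCommMonoid E] [Module ℂ E]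
    (f : κ × κ' → E) : mean f = mean fun a => mean fun b => f (a, b) := by
  simp only [mean, Fintype.card_prod, Fintype.sum_prod_type, ← Finset.smul_sum, smul_smul,
    Nat.cast_mul, mul_inv]

theorem rmean_prod {κ κ' : Type} [Fintype κ] [Fintype κ'] (f : κ × κ' → ℝ) :
    rmean f = rmean fun a => rmean fun b => f (a, b) := by
  simp only [rmean, Fintype.card_prod, Fintype.sum_prod_type, ← Finset.mul_sum, Nat.cast_mul,
    mul_inv, mul_assoc]

theorem rmean_le {κ : Type} [Fintype κ] {f g : κ → ℝ} (h : ∀ k, f k ≤ g k) : rmean f ≤ rmean g :=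
  mul_le_mul_of_nonneg_left (Finset.sum_le_sum fun k _ => h k) (by positivity)

theorem rmean_comm {κ κ' : Type} [Fintype κ] [Fintype κ'] (f : κ → κ' → ℝ) :
    rmean (fun a => rmean fun b => f a b) = rmean fun b => rmean fun a => f a b := by
  simp only [rmean, ← Finset.mul_sum]
  rw [Finset.sum_comm]
  ring

theorem norm_one_le (S : Std A H) : ‖(1 : A)‖ ≤ 1 := by
  have : Nontrivial A := ⟨1, 0, fun h => by
    have := S.norm_one
    rw [h, map_zero, norm_zero] at this
    norm_num at this⟩
  exact le_of_eq CStarRing.norm_one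

theorem norm_le_one_of_isometry (S : Std A H) {u : A} (hu : star u * u = 1) : ‖u‖ ≤ 1 := by
  have := CStarRing.norm_star_mul_self (x := u)
  rw [hu] at this
  nlinarith [norm_one_le S, norm_nonneg u]

section System

variable {n : ℕ} [NeZero n] {e : Fin n → Fin n → A}
  (hst : ∀ i j, star (e i j) = e j i)
  (hmul : ∀ i j k l, e i j * e k l = if j = k then e i l else 0)
  (hsum : ∑ i, e i i = 1)

/-- A signed shift. -/
noncomputable def shiftSign (e : Fin n → Fin n → A) (q : Fin n × (Fin n → Bool)) : A :=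
  ∑ j, sg (q.2 j) • e (q.1 + j) j

include hst in
theorem star_shiftSign (q : Fin n × (Fin n → Bool)) :
    star (shiftSign e q) = ∑ j, sg (q.2 j) • e j (q.1 + j) := by
  have hs : ∀ b, star (sg b) = sg b := fun b => by cases b <;> simp [sg]
  simp [shiftSign, star_sum, star_smul, hs, hst]

include hst hmul hsum in
theorem shiftSign_isometry (q : Fin n × (Fin n → Bool)) :
    star (shiftSign e q) * shiftSign e q = 1 := by
  rw [star_shiftSign hst, shiftSign, Finset.sum_mul]
  simp only [Finset.mul_sum, smul_mul_smul_comm, hmul, add_right_inj, smul_ite, smul_zero,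
    Finset.sum_ite_eq, Finset.mem_univ, if_true]
  rw [← hsum]
  refine Finset.sum_congr rfl fun j _ => ?_
  cases q.2 j <;> simp [sg]

include hst in
theorem mean_shiftSign (x : A) :
    mean (fun q => shiftSign e q * x * star (shiftSign e q)) = twirl e x ∧
      mean (fun q => star (shiftSign e q) * x * shiftSign e q) = twirl e x := by
  have key : ∀ f g : Fin n → Fin n → A,
      mean (fun q : Fin n × (Fin n → Bool) =>
        (∑ j, sg (q.2 j) • f q.1 j) * x * ∑ j, sg (q.2 j) • g q.1 j) =
        (n : ℂ)⁻¹ • ∑ s, ∑ j, f s j * x * g s j := by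
    intro f g
    rw [mean, Fintype.sum_prod_type, Fintype.card_prod, Fintype.card_fin, Nat.cast_mul, mul_inv,
      ← smul_smul]
    congr 1
    rw [Finset.smul_sum]
    refine Finset.sum_congr rfl fun s _ => ?_
    have e2 : ∀ ε : Fin n → Bool, (∑ j, sg (ε j) • f s j) * x * ∑ l, sg (ε l) • g s l =
        ∑ j, ∑ l, (sg (ε j) * sg (ε l)) • (f s j * x * g s l) := by
      intro ε
      rw [Finset.sum_mul, Finset.sum_mul]
      refine Finset.sum_congr rfl fun j _ => ?_
      rw [Finset.mul_sum]
      refine Finset.sum_congr rfl fun l _ => ?_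
      rw [smul_mul_assoc, smul_mul_smul_comm]
    have e3 : ∀ j, ∑ ε : Fin n → Bool, ∑ l, (sg (ε j) * sg (ε l)) • (f s j * x * g s l) =
        (Fintype.card (Fin n → Bool) : ℂ) • (f s j * x * g s j) := by
      intro j
      rw [Finset.sum_comm]
      simp only [← Finset.sum_smul, sum_sg, ite_smul, zero_smul, Finset.sum_ite_eq,
        Finset.mem_univ, if_true]
    simp only [e2]
    rw [Finset.sum_comm]
    simp only [e3]
    rw [← Finset.smul_sum, smul_smul, inv_mul_cancel₀ (by simp), one_smul]
  constructor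
  · simp only [star_shiftSign hst]
    simp only [shiftSign]
    rw [key (fun s j => e (s + j) j) fun s j => e j (s + j), twirl, Finset.sum_comm]
    conv_rhs => rw [Finset.sum_comm]
    congr 1
    exact Finset.sum_congr rfl fun j _ =>
      Equiv.sum_comp (Equiv.addRight j) fun i => e i j * x * e j i
  · simp only [star_shiftSign hst]
    simp only [shiftSign]
    rw [key (fun s j => e j (s + j)) fun s j => e (s + j) j, twirl, Finset.sum_comm]
    congr 1
    exact Finset.sum_congr rfl fun j _ =>
      Equiv.sum_comp (Equiv.addRight j) fun i => e j i * x * e i j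

include hst hmul hsum in
theorem bessel_shiftSign (S : Std A H) {P : Type} [Fintype P] (W : P → A)
    (hcomm : ∀ p i j, e i j * W p = W p * e i j) {C : ℝ}
    (hW : ∀ a, rmean (fun p => ‖S.τ (W p * a)‖ ^ 2) ≤ C * ‖S.ι a‖ ^ 2) (a : A) :
    rmean (fun r : (Fin n × (Fin n → Bool)) × P => ‖S.τ (shiftSign e r.1 * W r.2 * a)‖ ^ 2) ≤
      C / (n : ℝ) ^ 2 * ‖S.ι a‖ ^ 2 := by
  have hn : (0 : ℝ) < n := Nat.cast_pos.2 (Nat.pos_of_ne_zero (NeZero.ne n))
  set b : Fin n → Fin n → A := fun i j => ∑ k, e k j * a * e i k with hb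
  have h1 : ∀ p i j, S.τ (e i j * W p * a) = (n : ℂ)⁻¹ * S.τ (W p * b i j) := by
    intro p i j
    have : ∀ k, S.τ (W p * (e k j * a * e i k)) = S.τ (e i j * W p * a) := by
      intro k
      rw [← mul_assoc, tau_comm' S _ (e i k), ← mul_assoc (e i k), hcomm, mul_assoc (W p) (e i k),
        ← mul_assoc (e i k) (e k j), hmul, if_pos rfl, ← mul_assoc, hcomm]
    rw [hb, Finset.mul_sum, tau_sum, Finset.sum_congr rfl fun k _ => this k, Finset.sum_const,
      Finset.card_univ, Fintype.card_fin, nsmul_eq_mul, inv_mul_cancel_left₀ (by simp [NeZero.ne n])]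
  have h2 : ∑ i, ∑ j, ‖S.ι (b i j)‖ ^ 2 = n * ‖S.ι a‖ ^ 2 := by
    simp only [← tau_star_mul_re]
    rw [show (n : ℝ) * (S.τ (star a * a)).re = ((n : ℂ) * S.τ (star a * a)).re by simp]
    simp only [← Complex.re_sum]
    congr 1
    have : ∀ i j, S.τ (star (b i j) * b i j) = (n : ℂ) * S.τ (e i i * star a * e j j * a) := by
      intro i j
      simp only [hb, star_sum, star_mul, hst, Finset.sum_mul, Finset.mul_sum, tau_sum]
      rw [Finset.sum_comm]
      have e1 : ∀ k l, S.τ (e k i * (star a * e j k) * (e l j * a * e i l)) =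
          if k = l then S.τ (e i i * star a * e j j * a) else 0 := by
        intro k l
        have : e k i * (star a * e j k) * (e l j * a * e i l) =
            e k i * (star a * (e j k * e l j) * a) * e i l := by noncomm_ring
        rw [this, hmul]
        split_ifs with hkl
        · subst hkl
          rw [tau_comm' S _ (e i k), ← mul_assoc, hmul, if_pos rfl]
          simp [mul_assoc]
        · simp [tau_zero]
      simp only [e1]
      simp
    simp only [this, ← Finset.mul_sum, ← tau_sum, ← Finset.sum_mul, ← Finset.mul_sum,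
      hsum, mul_one, one_mul]
  calc rmean (fun r : (Fin n × (Fin n → Bool)) × P => ‖S.τ (shiftSign e r.1 * W r.2 * a)‖ ^ 2)
      = rmean fun p => (n : ℝ)⁻¹ * ∑ s, ∑ j, ‖S.τ (e (s + j) j * W p * a)‖ ^ 2 := by
        rw [rmean_prod, rmean_comm]
        congr 1
        funext p
        rw [rmean, Fintype.card_prod, Fintype.card_fin, Fintype.sum_prod_type, Nat.cast_mul,
          mul_inv, mul_assoc, Finset.mul_sum]
        congr 1
        refine Finset.sum_congr rfl fun s _ => ?_
        have : ∀ ε : Fin n → Bool, S.τ (shiftSign e (s, ε) * W p * a) =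
            ∑ j, sg (ε j) * S.τ (e (s + j) j * W p * a) := fun ε => by
          simp [shiftSign, Finset.sum_mul, tau_sum, smul_mul_assoc, tau_smul]
        simp only [this, sum_norm_sq_sg]
        rw [inv_mul_cancel_left₀]
        exact_mod_cast Fintype.card_ne_zero
    _ = rmean fun p => ((n : ℝ)⁻¹) ^ 3 * ∑ i, ∑ j, ‖S.τ (W p * b i j)‖ ^ 2 := by
        congr 1
        funext p
        rw [Finset.sum_comm]
        conv_rhs => rw [Finset.sum_comm]
        simp only [Finset.mul_sum]
        refine Finset.sum_congr rfl fun j _ => ?_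
        rw [← Equiv.sum_comp (Equiv.addRight j) (fun i => ((n : ℝ)⁻¹) ^ 3 *
          ‖S.τ (W p * b i j)‖ ^ 2)]
        refine Finset.sum_congr rfl fun s _ => ?_
        rw [Equiv.coe_addRight, h1, norm_mul, norm_inv, Complex.norm_natCast]
        ring
    _ = ((n : ℝ)⁻¹) ^ 3 * ∑ i, ∑ j, rmean (fun p => ‖S.τ (W p * b i j)‖ ^ 2) := by
        simp only [rmean, Finset.mul_sum]
        rw [Finset.sum_comm]
        refine Finset.sum_congr rfl fun i _ => ?_
        rw [Finset.sum_comm]
        exact Finset.sum_congr rfl fun j _ => Finset.sum_congr rfl fun p _ => by ring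
    _ ≤ ((n : ℝ)⁻¹) ^ 3 * ∑ i, ∑ j, C * ‖S.ι (b i j)‖ ^ 2 :=
        mul_le_mul_of_nonneg_left
          (Finset.sum_le_sum fun i _ => Finset.sum_le_sum fun j _ => hW _) (by positivity)
    _ = _ := by
        simp only [← Finset.mul_sum, h2]
        field_simp

end System

variable (S : Fac A H) (C : Chain S)

/-- Products of the first `K` systems. -/
theorem exists_isometries (K : ℕ) :
    ∃ (P : Type) (_ : Fintype P) (_ : Nonempty P) (W : P → A),
      (∀ p, star (W p) * W p = 1 ∧ W p ∈ StarAlgebra.adjoin ℂ C.units ∧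
        ∀ K', K ≤ K' → ∀ i j, C.e K' i j * W p = W p * C.e K' i j) ∧
      (∀ x, mean (fun p => W p * x * star (W p)) = avgTo C.n C.e K x) ∧
      (∀ x, mean (fun p => star (W p) * x * W p) = avgTo C.n C.e K x) ∧
      ∀ a, rmean (fun p => ‖S.τ (W p * a)‖ ^ 2) ≤ (1 / 4 : ℝ) ^ K * ‖S.ι a‖ ^ 2 := by
  induction K with
  | zero =>
    refine ⟨Unit, inferInstance, inferInstance, fun _ => 1, fun p => ⟨by simp, one_mem _,
      fun K' _ i j => by simp⟩, fun x => by simp [mean, avgTo], fun x => by simp [mean, avgTo],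
      fun a => ?_⟩
    simp only [rmean, pow_zero, one_mul, Finset.univ_unique, Finset.sum_singleton,
      Fintype.card_unique, Nat.cast_one, inv_one]
    refine pow_le_pow_left₀ (norm_nonneg _) ((norm_inner_le_norm _ _).trans ?_) 2
    rw [S.norm_one, one_mul]
  | succ K ih =>
    obtain ⟨P, _, _, W, hW, hW1, hW2, hW3⟩ := ih
    have : NeZero (C.n K) := ⟨by have := C.four_le K; omega⟩
    let U := shiftSign (C.e K)
    have hcomm : ∀ p i j, C.e K i j * W p = W p * C.e K i j := fun p => (hW p).2.2 K le_rfl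
    have hUW : ∀ q p, U q * W p = W p * U q := fun q p => by
      simp [U, shiftSign, Finset.sum_mul, Finset.mul_sum, smul_mul_assoc, mul_smul_comm, hcomm]
    refine ⟨(Fin (C.n K) × (Fin (C.n K) → Bool)) × P, inferInstance, inferInstance,
      fun r => U r.1 * W r.2, fun r => ⟨?_, ?_, ?_⟩, fun x => ?_, fun x => ?_, fun a => ?_⟩
    · rw [star_mul, mul_assoc, ← mul_assoc (star (U r.1)),
        shiftSign_isometry (C.star_e K) (C.mul_e K) (C.sum_e K), one_mul, (hW r.2).1]
    · refine mul_mem (sum_mem fun j _ => ?_) (hW r.2).2.1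
      exact SMulMemClass.smul_mem _ (StarAlgebra.subset_adjoin ℂ _ ⟨K, _, _, rfl⟩)
    · intro K' hK' i j
      have hc : C.e K' i j * U r.1 = U r.1 * C.e K' i j := by
        simp [U, shiftSign, Finset.sum_mul, Finset.mul_sum, smul_mul_assoc, mul_smul_comm,
          C.comm K' K (by omega)]
      rw [← mul_assoc, hc, mul_assoc, (hW r.2).2.2 K' (by omega), mul_assoc]
    · rw [mean_prod, avgTo]
      refine (congrArg mean (funext fun q => ?_)).trans
        (mean_shiftSign (C.star_e K) (avgTo C.n C.e K x)).1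
      rw [← hW1 x]
      simp [U, mean, Finset.mul_sum, Finset.sum_mul, mul_assoc, mul_smul_comm, smul_mul_assoc]
    · rw [mean_prod, avgTo]
      refine (congrArg mean (funext fun q => ?_)).trans
        (mean_shiftSign (C.star_e K) (avgTo C.n C.e K x)).2
      rw [← hW2 x]
      simp only [mean, Finset.mul_sum, Finset.sum_mul, mul_smul_comm, smul_mul_assoc]
      congr 1
      refine Finset.sum_congr rfl fun p _ => ?_
      rw [hUW, star_mul]
      simp [U, mul_assoc]
    · refine (bessel_shiftSign (C.star_e K) (C.mul_e K) (C.sum_e K) S.toStd W hcomm hW3 a).trans ?_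
      rw [pow_succ]
      refine mul_le_mul_of_nonneg_right ?_ (sq_nonneg _)
      have h4 : (4 : ℝ) ≤ C.n K := by exact_mod_cast C.four_le K
      rw [div_eq_mul_inv]
      refine mul_le_mul_of_nonneg_left ?_ (by positivity)
      rw [one_div]
      exact inv_anti₀ (by norm_num) (by nlinarith)

/-- A level: self-adjoint, mean zero, scalarising `G`, small on every single trace. -/
structure IsLevel {P : Type} [Fintype P] (V : P → A) (G : Finset A) (δ : ℝ) : Prop where
  sa : ∀ p, star (V p) = V p
  mem : ∀ p, V p ∈ StarAlgebra.adjoin ℂ C.units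
  norm_le : ∀ p, ‖V p‖ ≤ 2
  centred : ∑ p, V p = 0
  scal : ∀ y ∈ G, ‖S.ι (mean (fun p => V p * y * V p) - S.τ y • (1 : A))‖ ≤ δ
  small : ∀ a, rmean (fun p => ‖S.τ (V p * a)‖ ^ 2) ≤ δ * ‖S.ι a‖ ^ 2

theorem exists_level (G : Finset A) {δ : ℝ} (hδ : 0 < δ) :
    ∃ (P : Type) (_ : Fintype P) (_ : Nonempty P) (V : P → A), IsLevel S C V G δ := by
  have h1 : ∀ᶠ K in atTop, ∀ y ∈ G,
      ‖S.ι (avgTo C.n C.e K y - S.τ y • (1 : A))‖ ≤ δ := by
    rw [Finset.eventually_all]
    intro y _
    filter_upwards [(tendsto_iff_norm_sub_tendsto_zero.1 (C.scal y)).eventually (ge_mem_nhds hδ)]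
      with K hK
    rwa [map_sub]
  have h2 : ∀ᶠ K in atTop, (1 / 4 : ℝ) ^ K ≤ δ / 2 :=
    (tendsto_pow_atTop_nhds_zero_of_lt_one (by norm_num) (by norm_num)).eventually
      (ge_mem_nhds (half_pos hδ))
  obtain ⟨K, hK1, hK2⟩ := (h1.and h2).exists
  obtain ⟨P, _, _, W, hW, hW1, hW2, hW3⟩ := exists_isometries S C K
  let z : Bool × Bool → ℂ := fun o => (sg o.1 + sg o.2 * Complex.I) / 2
  have hz : ∀ o, ‖z o‖ ≤ 1 ∧ ‖z o‖ ^ 2 ≤ 1 / 2 := by
    intro o
    have h : ‖z o‖ ^ 2 = 1 / 2 := by
      rw [← Complex.normSq_eq_norm_sq]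
      rcases o with ⟨a, b⟩
      cases a <;> cases b <;> simp [z, sg, Complex.normSq_apply] <;> norm_num
    exact ⟨by nlinarith [norm_nonneg (z o)], h.le⟩
  refine ⟨(Bool × Bool) × P, inferInstance, inferInstance,
    fun r => z r.1 • W r.2 + star (z r.1) • star (W r.2), ⟨fun r => ?_, fun r => ?_, fun r => ?_,
    ?_, fun y hy => ?_, fun a => ?_⟩⟩
  · rw [star_add, star_smul, star_smul, star_star, star_star, add_comm]
  · exact add_mem (SMulMemClass.smul_mem _ (hW r.2).2.1)
      (SMulMemClass.smul_mem _ (star_mem (hW r.2).2.1))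
  · refine (norm_add_le _ _).trans ?_
    rw [norm_smul, norm_smul, norm_star, norm_star]
    have := norm_le_one_of_isometry S.toStd (hW r.2).1
    nlinarith [(hz r.1).1, norm_nonneg (z r.1), norm_nonneg (W r.2)]
  · rw [Fintype.sum_prod_type, Finset.sum_comm]
    refine Finset.sum_eq_zero fun p _ => ?_
    simp only [Fintype.sum_prod_type, Fintype.sum_bool, z, sg, Complex.star_def, map_div₀, map_add,
      map_mul, map_neg, map_one, Complex.conj_I, map_ofNat]
    module
  · have e : mean (fun r : (Bool × Bool) × P => (z r.1 • W r.2 + star (z r.1) • star (W r.2)) * y *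
        (z r.1 • W r.2 + star (z r.1) • star (W r.2))) = avgTo C.n C.e K y := by
      have e1 : avgTo C.n C.e K y = (1 / 2 : ℂ) • (mean (fun p => W p * y * star (W p)) +
          mean fun p => star (W p) * y * W p) := by
        rw [hW1, hW2, ← two_smul ℂ, smul_smul]
        norm_num
      rw [e1]
      simp only [mean, Fintype.card_prod, Fintype.card_bool, Fintype.sum_prod_type,
        Fintype.sum_bool, ← smul_add, ← Finset.sum_add_distrib, Finset.smul_sum]
      refine Finset.sum_congr rfl fun p _ => ?_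
      simp only [z, sg, Complex.star_def, map_div₀, map_add, map_mul, map_neg, map_one,
        Complex.conj_I, map_ofNat, add_mul, mul_add, smul_mul_assoc, mul_smul_comm, Nat.cast_mul,
        Nat.cast_ofNat, mul_inv]
      match_scalars <;> ring_nf <;> simp [Complex.I_sq] <;> ring
    rw [e]
    exact hK1 y hy
  · have hpt : ∀ r : (Bool × Bool) × P,
        ‖S.τ ((z r.1 • W r.2 + star (z r.1) • star (W r.2)) * a)‖ ^ 2 ≤
          ‖S.τ (W r.2 * a)‖ ^ 2 + ‖S.τ (W r.2 * star a)‖ ^ 2 := by
      intro r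
      have e : ‖S.τ (star (W r.2) * a)‖ = ‖S.τ (W r.2 * star a)‖ := by
        rw [tau_comm' S.toStd (W r.2), tau_mul, tau_mul, star_star, star_star, norm_inner_symm]
      rw [add_mul, smul_mul_assoc, smul_mul_assoc, tau_add, tau_smul, tau_smul]
      have h := norm_add_le (z r.1 * S.τ (W r.2 * a)) (star (z r.1) * S.τ (star (W r.2) * a))
      rw [norm_mul, norm_mul, norm_star, e] at h
      have := pow_le_pow_left₀ (norm_nonneg _) h 2
      refine this.trans ?_
      have h3 := mul_le_mul_of_nonneg_right (hz r.1).2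
        (sq_nonneg (‖S.τ (W r.2 * a)‖ + ‖S.τ (W r.2 * star a)‖))
      nlinarith [sq_nonneg (‖S.τ (W r.2 * a)‖ - ‖S.τ (W r.2 * star a)‖)]
    refine (rmean_le hpt).trans ?_
    have e : rmean (fun r : (Bool × Bool) × P =>
        ‖S.τ (W r.2 * a)‖ ^ 2 + ‖S.τ (W r.2 * star a)‖ ^ 2) =
        rmean (fun p => ‖S.τ (W p * a)‖ ^ 2) + rmean fun p => ‖S.τ (W p * star a)‖ ^ 2 := by
      simp [rmean, Fintype.sum_prod_type, Finset.sum_add_distrib]
      ring
    rw [e]
    have := hW3 (star a)
    rw [norm_star_eq S.toStd] at this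
    nlinarith [hW3 a, mul_le_mul_of_nonneg_right hK2 (sq_nonneg ‖S.ι a‖)]

end VP085.Carrier
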