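import Vale.Agent.P085.Carrier.Step

/-!
P085, carriers: adding levels one at a time gives a random family that is free semicircular over a
finite set, in mean.
-/

namespace VP085.Carrier

open VP086

section Lists

variable {α : Type} [DecidableEq α]

/-- The lists of length at most `k` over a finite set. -/
def listsLE (s : Finset α) : ℕ → Finset (List α)
  | 0 => {[]}
  | k + 1 => insert [] ((s ×ˢ listsLE s k).image fun p => p.1 :: p.2)

theorem mem_listsLE (s : Finset α) {k : ℕ} {l : List α} (h : l.length ≤ k) (hl : ∀ x ∈ l, x ∈ s) :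
    l ∈ listsLE s k := by
  induction k generalizing l with
  | zero => simp [List.eq_nil_of_length_eq_zero (Nat.le_zero.1 h), listsLE]
  | succ k ih =>
    cases l with
    | nil => simp [listsLE]
    | cons x l =>
      simp only [listsLE, Finset.mem_insert, Finset.mem_image, Finset.mem_product]
      refine Or.inr ⟨(x, l), ⟨hl x (by simp), ih (by simpa using h) fun y hy => hl y ?_⟩, rfl⟩
      exact List.mem_cons_of_mem _ hy

end Lists

theorem pow_step {t h : ℝ} (ht : 0 ≤ t) (hh : 0 ≤ h) (hth : t + h ≤ 1) (k : ℕ) :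
    |(t + h) ^ k - t ^ k - (k : ℝ) * h * t ^ (k - 1)| ≤ 2 ^ k * h ^ 2 := by
  induction k with
  | zero => simp; positivity
  | succ k ih =>
    rw [Nat.add_sub_cancel]
    rcases Nat.eq_zero_or_pos k with rfl | hk
    · simp; positivity
    obtain ⟨j, rfl⟩ : ∃ j, k = j + 1 := ⟨k - 1, by omega⟩
    rw [Nat.add_sub_cancel] at ih
    have e : (t + h) ^ (j + 1 + 1) - t ^ (j + 1 + 1) - ((j + 1 + 1 : ℕ) : ℝ) * h * t ^ (j + 1) =
        (t + h) * ((t + h) ^ (j + 1) - t ^ (j + 1) - ((j + 1 : ℕ) : ℝ) * h * t ^ j) +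
          ((j + 1 : ℕ) : ℝ) * h ^ 2 * t ^ j := by
      push_cast
      ring
    rw [e]
    refine (abs_add_le _ _).trans ?_
    rw [abs_mul, abs_of_nonneg (add_nonneg ht hh),
      abs_of_nonneg (show 0 ≤ ((j + 1 : ℕ) : ℝ) * h ^ 2 * t ^ j by positivity),
      pow_succ (2 : ℝ) (j + 1)]
    have h1 : t ^ j ≤ 1 := pow_le_one₀ ht (by linarith)
    have h2 : ((j + 1 : ℕ) : ℝ) ≤ 2 ^ (j + 1) := by
      exact_mod_cast Nat.lt_two_pow_self.le
    have h3 : (t + h) * |(t + h) ^ (j + 1) - t ^ (j + 1) - ((j + 1 : ℕ) : ℝ) * h * t ^ j| ≤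
        2 ^ (j + 1) * h ^ 2 := (mul_le_of_le_one_left (abs_nonneg _) hth).trans ih
    have h4 : ((j + 1 : ℕ) : ℝ) * h ^ 2 * t ^ j ≤ 2 ^ (j + 1) * h ^ 2 :=
      (mul_le_of_le_one_right (by positivity) h1).trans
        (mul_le_mul_of_nonneg_right h2 (sq_nonneg _))
    linarith

theorem one_add_pow_le {x : ℝ} (hx : 0 ≤ x) {L b : ℕ} (hb : b ≤ L) (hL : 0 < L) :
    (1 + x / L) ^ b ≤ Real.exp x := by
  refine (pow_le_pow_right₀ (le_add_of_nonneg_right (by positivity)) hb).trans ?_
  have h1 : 1 + x / L ≤ Real.exp (x / L) := by linarith [Real.add_one_le_exp (x / L)]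
  refine (pow_le_pow_left₀ (by positivity) h1 L).trans_eq ?_
  rw [← Real.exp_nat_mul, mul_div_cancel₀ _ (Nat.cast_ne_zero.2 hL.ne')]

theorem mean_list_sum {κ α : Type} [Fintype κ] (l : List α) (f : κ → α → ℂ) :
    mean (fun w => (l.map (f w)).sum) = (l.map fun x => mean fun w => f w x).sum := by
  induction l with
  | nil => simp [mean]
  | cons x l ih =>
    simp only [List.map_cons, List.sum_cons, ← ih]
    simp [mean, Finset.sum_add_distrib, mul_add]

theorem mean_re {κ : Type} [Fintype κ] (f : κ → ℂ) :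
    (mean f).re = rmean fun w => (f w).re := by
  have : (Fintype.card κ : ℂ)⁻¹ = (((Fintype.card κ : ℝ)⁻¹ : ℝ) : ℂ) := by simp
  rw [mean, smul_eq_mul, this, Complex.re_ofReal_mul, Complex.re_sum]
  rfl

theorem norm_mean_le {κ : Type} [Fintype κ] {f : κ → ℂ} {b : κ → ℝ} (h : ∀ w, ‖f w‖ ≤ b w) :
    ‖mean f‖ ≤ rmean b := by
  rw [mean, norm_smul, norm_inv, Complex.norm_natCast, rmean]
  exact mul_le_mul_of_nonneg_left ((norm_sum_le _ _).trans (Finset.sum_le_sum fun w _ => h w))
    (by positivity)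

theorem norm_list_sum_le {α : Type} (l : List α) (f : α → ℂ) {c : ℝ} (h : ∀ x ∈ l, ‖f x‖ ≤ c) :
    ‖(l.map f).sum‖ ≤ l.length * c := by
  induction l with
  | nil => simp
  | cons x l ih =>
    rw [List.map_cons, List.sum_cons, List.length_cons]
    push_cast
    refine (norm_add_le _ _).trans ?_
    linarith [h x (by simp), ih fun y hy => h y (List.mem_cons_of_mem _ hy)]

variable {A : Type} [CStarAlgebra A] {H : Type} [NormedAddCommGroup H] [InnerProductSpace ℂ H]
  (S : Fac A H) {ι : Type} [Fintype ι] [DecidableEq ι]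

/-- The moment of the letters of `A`. -/
noncomputable def phi (m : List A) : ℂ := S.τ m.prod

/-- The admissible lists of words. -/
def Adm (F : Finset A) (n : ℕ) (ls : List (List (ι ⊕ A))) : Prop :=
  len ls + ls.length ≤ n + 1 ∧ len ls ≤ n ∧ ∀ l ∈ ls, ∀ x, Sum.inr x ∈ l → x ∈ F

omit [Fintype ι] in
theorem Adm.split {F : Finset A} {n : ℕ} {ls s : List (List (ι ⊕ A))} (h : Adm F n ls)
    (hs : s ∈ splits ls) : Adm F n s := by
  obtain ⟨h1, h2, h3⟩ := h
  obtain ⟨-, e, hmem⟩ := mem_splits hs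
  have hlen : s.length = ls.length + 1 := by
    clear h1 h2 h3 e hmem
    induction ls generalizing s with
    | nil => simp [splits] at hs
    | cons l ls ih =>
      simp only [splits, List.mem_append, List.mem_map] at hs
      rcases hs with ⟨c, _, rfl⟩ | ⟨t, ht, rfl⟩
      · simp
      · simp [ih ht]
  refine ⟨by omega, by omega, fun l hl x hx => ?_⟩
  obtain ⟨l', hl', hx'⟩ := hmem l hl _ hx
  exact h3 l' hl' x hx'

/-- The size of one member of the family. -/
noncomputable def size (n : ℕ) (R : ℝ) (g : ι → A) : ℝ := R ^ n + ∑ i, (S.τ (g i ^ n)).re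

/-- The mean of the products of traces. -/
noncomputable def Phi {κ : Type} [Fintype κ] (g : κ → ι → A) (ls : List (List (ι ⊕ A))) : ℂ :=
  mean fun w => Z0 S.toStd (g w) ls

/-- The target value after `b` of `L` levels. -/
noncomputable def target (L b : ℕ) (ls : List (List (ι ⊕ A))) : ℂ :=
  ((((b : ℝ) / L) ^ (nls ls / 2) : ℝ) : ℂ) * wks (phi S) ls

omit [Fintype ι] in
theorem Z0_zero (ls : List (List (ι ⊕ A))) :
    Z0 S.toStd (fun _ : ι => (0 : A)) ls = if nls ls = 0 then wks (phi S) ls else 0 := by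
  induction ls with
  | nil => simp [Z0, nls, wks]
  | cons l ls ih =>
    have e : S.τ (ev (fun _ : ι => (0 : A)) l) = if nl l = 0 then wk (phi S) l else 0 := by
      split_ifs with h
      · rw [wk_right _ h, phi]
        congr 1
        clear ih
        induction l with
        | nil => simp
        | cons z l ihl =>
          cases z with
          | inl i => simp [nl] at h
          | inr x => simp [ihl (by simpa [nl] using h)]
      · obtain ⟨p, i, U, rfl, -⟩ := exists_first l h
        simp [ev_append, tau_zero]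
    rw [Z0, e, ih]
    by_cases h1 : nl l = 0 <;> by_cases h2 : nls ls = 0 <;> simp [nls, wks] at h2 ⊢ <;>
      simp [h1, h2]

/-- What holds after `b` of `L` levels. -/
def Built (C : Chain S) (F : Finset A) (n : ℕ) (R Γ E : ℝ) (L b : ℕ) : Prop :=
  ∃ (κ : Type) (_ : Fintype κ) (_ : Nonempty κ) (g : κ → ι → A),
    (∀ w i, IsSelfAdjoint (g w i) ∧ g w i ∈ StarAlgebra.adjoin ℂ C.units) ∧
    rmean (fun w => size S n R (g w)) ≤ R ^ n * (1 + Γ / L) ^ b ∧
    ∀ ls, Adm F n ls →
      ‖Phi S g ls - target S L b ls‖ ≤ (b : ℝ) * E * (1 + ((n : ℝ) * n) / L) ^ b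

theorem built_zero (C : Chain S) (F : Finset A) (n : ℕ) (hn : 0 < n) (R Γ E : ℝ) (L : ℕ) :
    Built (ι := ι) S C F n R Γ E L 0 := by
  refine ⟨Unit, inferInstance, inferInstance, fun _ _ => 0,
    fun w i => ⟨IsSelfAdjoint.zero _, zero_mem _⟩, ?_, fun ls _ => ?_⟩
  · simp [rmean, size, zero_pow hn.ne', tau_zero]
  · have e : Phi S (fun (_ : Unit) (_ : ι) => (0 : A)) ls = target S L 0 ls := by
      simp only [Phi, mean, Finset.univ_unique, Finset.sum_singleton, Fintype.card_unique,
        Nat.cast_one, inv_one, one_smul, Z0_zero, target, Nat.cast_zero, zero_div]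
      split_ifs with h
      · simp [h]
      · by_cases h1 : nls ls = 1
        · simp [wks_odd (phi S) ls (by omega)]
        · simp [zero_pow (show nls ls / 2 ≠ 0 by omega)]
    simp [e]

theorem good_of_norm {m : ℕ} {β R : ℝ} {x : A} (hx : ‖x‖ ≤ R)
    (hβ : R ^ 2 ^ (m + 1) ≤ β ^ 2 ^ (m + 1)) : Good S.toStd m β x := by
  refine le_trans ?_ hβ
  refine (Complex.re_le_norm _).trans ((norm_tau_le _ _).trans ((norm_pow_le' _
    (Nat.two_pow_pos m)).trans ?_))
  rw [CStarRing.norm_star_mul_self, ← sq, ← pow_mul, ← pow_succ']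
  exact pow_le_pow_left₀ (norm_nonneg _) hx _

theorem tau_pow_nonneg {a : A} (ha : IsSelfAdjoint a) (m : ℕ) :
    0 ≤ (S.τ (a ^ 2 ^ (m + 1))).re := by
  rw [pow_succ, Nat.mul_two, pow_add]
  nth_rw 1 [← ha.star_eq]
  rw [← star_pow, tau_star_mul_re]
  positivity

theorem exists_beta {m : ℕ} {R : ℝ} (hR : 2 ≤ R) (g : ι → A) (hg : ∀ i, IsSelfAdjoint (g i)) :
    ∃ β : ℝ, 1 ≤ β ∧ β ^ 2 ^ (m + 1) = size S (2 ^ (m + 1)) R g ∧
      (∀ i, Good S.toStd m β (g i)) ∧ ∀ x : A, ‖x‖ ≤ R → Good S.toStd m β x := by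
  have hR1 : (1 : ℝ) ≤ R ^ 2 ^ (m + 1) := one_le_pow₀ (by linarith)
  have hs : R ^ 2 ^ (m + 1) ≤ size S (2 ^ (m + 1)) R g :=
    le_add_of_nonneg_right (Finset.sum_nonneg fun i _ => tau_pow_nonneg S (hg i) m)
  refine ⟨size S (2 ^ (m + 1)) R g ^ (((2 ^ (m + 1) : ℕ) : ℝ)⁻¹), ?_, ?_, fun i => ?_,
    fun x hx => ?_⟩
  · exact Real.one_le_rpow (hR1.trans hs) (by positivity)
  · exact Real.rpow_inv_natCast_pow (by linarith) (by positivity)
  · rw [Good, Real.rpow_inv_natCast_pow (by linarith) (by positivity), (hg i).star_eq, ← sq,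
      ← pow_mul, ← pow_succ', size]
    have := Finset.single_le_sum (f := fun j => (S.τ (g j ^ 2 ^ (m + 1))).re)
      (fun j _ => tau_pow_nonneg S (hg j) m) (Finset.mem_univ i)
    linarith
  · refine good_of_norm S hx ?_
    rw [Real.rpow_inv_natCast_pow (by linarith) (by positivity)]
    exact hs

theorem size_eq_Z0 (n : ℕ) (R : ℝ) (g : ι → A) :
    size S n R g = R ^ n + ∑ i, (Z0 S.toStd g [List.replicate n (Sum.inl i)]).re := by
  simp [size, Z0, ev]

/-- One more level. -/
theorem built_succ (C : Chain S) (F : Finset A) {m : ℕ} (hm : 1 ≤ m) {R K : ℝ} (hR : 2 ≤ R)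
    (hFR : ∀ x ∈ F, ‖x‖ ≤ R)
    (hK : ∀ ls : List (List (ι ⊕ A)), Adm F (2 ^ (m + 1)) ls → ‖wks (phi S) ls‖ ≤ K)
    {Γ B E : ℝ}
    (hΓ : (Fintype.card ι : ℝ) * (((2 ^ (m + 1) : ℕ) : ℝ) * ((2 ^ (m + 1) : ℕ) : ℝ) +
      16 ^ (2 ^ (m + 1) + 1) + 1) ≤ Γ)
    {L b : ℕ} (hb : b + 1 ≤ L)
    (hB : R ^ 2 ^ (m + 1) * (1 + Γ / L) ^ b ≤ B)
    (hE : (16 ^ (2 ^ (m + 1) + 1) * B + 1 + 2 ^ 2 ^ (m + 1) * K) * ((Real.sqrt L)⁻¹ / L) ≤ E)
    (h : Built (ι := ι) S C F (2 ^ (m + 1)) R Γ E L b) :
    Built (ι := ι) S C F (2 ^ (m + 1)) R Γ E L (b + 1) := by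
  classical
  obtain ⟨κ, _, _, g, hg, hsize, herr⟩ := h
  set n := 2 ^ (m + 1) with hn
  have hn0 : 0 < n := Nat.two_pow_pos _
  have hL : 0 < L := by omega
  have hLr : (1 : ℝ) ≤ L := by exact_mod_cast hL
  set s : ℝ := (Real.sqrt L)⁻¹ with hs
  have hsq : s ^ 2 = 1 / L := by
    rw [hs, inv_pow, Real.sq_sqrt (by positivity), one_div]
  have hs0 : 0 ≤ s := by positivity
  have hs1 : s ≤ 1 := inv_le_one_of_one_le₀ (Real.one_le_sqrt.2 hLr)
  have hs3 : s ^ 3 = s / L := by rw [pow_succ, hsq]; ring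
  have hsL : (1 : ℝ) / L ≤ s := by rw [← hsq]; nlinarith
  -- the level
  set words := listsLE ((Finset.univ : Finset ι).image Sum.inl ∪ F.image Sum.inr) n with hwords
  have hmemw : ∀ l : List (ι ⊕ A), l.length ≤ n → (∀ x, Sum.inr x ∈ l → x ∈ F) → l ∈ words := by
    intro l hl hF
    refine mem_listsLE _ hl fun z hz => ?_
    cases z with
    | inl i => simp
    | inr x => simp [hF x hz]
  set Ω : ℝ := 1 + ∑ w, ∑ l ∈ words, ‖ev (g w) l‖ with hΩ
  have hΩ1 : 1 ≤ Ω := le_add_of_nonneg_right (by positivity)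
  have hevΩ : ∀ w, ∀ l ∈ words, ‖ev (g w) l‖ ≤ Ω := by
    intro w l hl
    have h1 := Finset.single_le_sum (f := fun l => ‖ev (g w) l‖) (fun _ _ => norm_nonneg _) hl
    have h2 := Finset.single_le_sum (f := fun w => ∑ l ∈ words, ‖ev (g w) l‖)
      (fun w _ => by positivity) (Finset.mem_univ w)
    linarith
  set δ : ℝ := (1 / L) / (4 ^ (n + 1) * Ω ^ (2 * (n + 1)) * Ω ^ 2) with hδ
  have hδ0 : 0 < δ := by positivity
  obtain ⟨P, _, _, V, hV⟩ := exists_level S C
    (((Finset.univ : Finset κ) ×ˢ words).image fun p => ev (g p.1) p.2) hδ0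
  have hyp : ∀ w, StepHyp S.toStd V (g w) (F : Set A) n Ω δ := fun w =>
    ⟨hV.centred, hΩ1, hδ0.le, fun l hl hF => hevΩ w l (hmemw l hl hF),
      fun l hl hF => hV.scal _ (Finset.mem_image.2 ⟨(w, l), by simp [hmemw l hl hF], rfl⟩),
      hV.small⟩
  set g' : κ × (ι → P) → ι → A := fun r i => g r.1 i + (s : ℂ) • V (r.2 i) with hg'
  set M := rmean (fun w => size S n R (g w)) with hM
  have hM1 : 1 ≤ M := by
    have e : rmean (fun _ : κ => (1 : ℝ)) = 1 := by
      simp [rmean]
    rw [← e]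
    exact rmean_le fun w => (one_le_pow₀ (by linarith)).trans
      (le_add_of_nonneg_right (Finset.sum_nonneg fun i _ => tau_pow_nonneg S (hg w i).1 m))
  -- the bound on one list
  have hbnd : ∀ ls, Adm F n ls → ‖Phi S g ls‖ ≤ M := by
    intro ls hls
    refine norm_mean_le fun w => ?_
    obtain ⟨β, hβ, hβn, hgood, hgood'⟩ := exists_beta S (m := m) hR (g w) fun i => (hg w i).1
    have := (Z_bound (v := fun _ : ι => (0 : A)) (s := 0) S.toStd hm hβ hgood
      (fun i => hgood' 0 (by simp; linarith)) (by simp) ls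
      (fun l hl x hx => hgood' x (hFR x (hls.2.2 l hl x hx))) hls.2.1).1
    exact this.trans ((pow_le_pow_right₀ hβ hls.2.1).trans hβn.le)
  have hstep : ∀ ls, Adm F n ls → ‖Phi S g' ls - Phi S g ls -
      (s : ℂ) ^ 2 * ((splits ls).map (Phi S g)).sum‖ ≤
        s / L * (16 ^ (n + 1) * M) + (1 / L) * (1 / L) := by
    intro ls hls
    have e : Phi S g' ls - Phi S g ls - (s : ℂ) ^ 2 * ((splits ls).map (Phi S g)).sum =
        mean fun w => (mean fun q : ι → P => Z0 S.toStd (fun i => g w i + (s : ℂ) • V (q i)) ls) -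
          Z0 S.toStd (g w) ls - (s : ℂ) ^ 2 * ((splits ls).map (Z0 S.toStd (g w))).sum := by
      rw [show ((splits ls).map (Phi S g)).sum =
        mean fun w => ((splits ls).map (Z0 S.toStd (g w))).sum from (mean_list_sum _ _).symm]
      simp only [Phi, hg']
      rw [mean_prod]
      simp only [mean, smul_eq_mul, Finset.sum_sub_distrib, ← Finset.mul_sum]
      ring
    rw [e]
    have e2 : rmean (fun w => s / L * (16 ^ (n + 1) * size S n R (g w)) + (1 / L : ℝ) * (1 / L)) =
        s / L * (16 ^ (n + 1) * M) + (1 / L) * (1 / L) := by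
      have hc : (Fintype.card κ : ℝ) ≠ 0 := Nat.cast_ne_zero.2 Fintype.card_ne_zero
      simp [rmean, hM, Finset.sum_add_distrib, ← Finset.mul_sum, mul_add]
      field_simp
    rw [← e2]
    refine norm_mean_le fun w => ?_
    obtain ⟨β, hβ, hβn, hgood, hgood'⟩ := exists_beta S (m := m) hR (g w) fun i => (hg w i).1
    refine (step (hyp w) ls hls.2.1 hls.2.2 hm hβ le_rfl hgood
      (fun p => hgood' _ ((hV.norm_le p).trans hR)) (fun x hx => hgood' x (hFR x hx)) hs0 hs1).trans
      (add_le_add ?_ ?_)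
    · rw [hs3]
      refine mul_le_mul_of_nonneg_left (mul_le_mul
        (pow_le_pow_right₀ (by norm_num) hls.1) ?_ (by positivity) (by positivity)) (by positivity)
      exact (pow_le_pow_right₀ hβ hls.2.1).trans hβn.le
    · rw [hsq]
      refine mul_le_mul_of_nonneg_left ?_ (by positivity)
      have h4 : (4 : ℝ) ^ (len ls + ls.length) ≤ 4 ^ (n + 1) :=
        pow_le_pow_right₀ (by norm_num) hls.1
      have hO : Ω ^ (2 * ls.length) ≤ Ω ^ (2 * (n + 1)) :=
        pow_le_pow_right₀ hΩ1 (by have := hls.1; omega)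
      calc _ ≤ 4 ^ (n + 1) * Ω ^ (2 * (n + 1)) * (δ * Ω ^ 2) := by gcongr
        _ = 1 / L := by rw [hδ]; field_simp
  refine ⟨κ × (ι → P), inferInstance, inferInstance, g', fun r i => ⟨?_, ?_⟩, ?_, fun ls hls => ?_⟩
  · exact (hg r.1 i).1.add (IsSelfAdjoint.smul (by simp [IsSelfAdjoint]) (hV.sa _))
  · exact add_mem (hg r.1 i).2 (SMulMemClass.smul_mem _ (hV.mem _))
  · -- sizes
    have hrep : ∀ i : ι, Adm F n [List.replicate n (Sum.inl i : ι ⊕ A)] := fun i =>
      ⟨by simp [len], by simp [len], fun l hl x hx => by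
        simp only [List.mem_singleton] at hl
        subst hl
        exact absurd (List.eq_of_mem_replicate hx) (by simp)⟩
    have e : ∀ {κ' : Type} [Fintype κ'] [Nonempty κ'] (f : κ' → ι → A),
        rmean (fun w => size S n R (f w)) =
          R ^ n + ∑ i, (Phi S f [List.replicate n (Sum.inl i)]).re := by
      intro κ' _ _ f
      simp only [size_eq_Z0, Phi, mean_re, rmean, Finset.sum_add_distrib, Finset.sum_const,
        Finset.card_univ, nsmul_eq_mul, mul_add, ← Finset.mul_sum]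
      rw [inv_mul_cancel_left₀ (Nat.cast_ne_zero.2 Fintype.card_ne_zero), Finset.sum_comm]
    have hi : ∀ i : ι, (Phi S g' [List.replicate n (Sum.inl i)]).re ≤
        (Phi S g [List.replicate n (Sum.inl i)]).re + ((n : ℝ) * n + 16 ^ (n + 1) + 1) / L * M := by
      intro i
      set ls := [List.replicate n (Sum.inl i : ι ⊕ A)]
      have hls : Adm F n ls := hrep i
      have h1 := hstep ls hls
      have h2 : ‖(s : ℂ) ^ 2 * ((splits ls).map (Phi S g)).sum‖ ≤ 1 / L * ((n : ℝ) * n * M) := by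
        rw [norm_mul, norm_pow, Complex.norm_real, Real.norm_eq_abs, abs_of_nonneg hs0, hsq]
        refine mul_le_mul_of_nonneg_left ((norm_list_sum_le _ _ fun x hx =>
          hbnd x (hls.split hx)).trans (mul_le_mul_of_nonneg_right ?_ (by linarith))) (by positivity)
        exact_mod_cast (splits_length_le ls).trans (Nat.mul_le_mul hls.2.1 hls.2.1)
      have h3 := Complex.re_le_norm (Phi S g' ls - Phi S g ls)
      have h4 := norm_add_le (Phi S g' ls - Phi S g ls -
        (s : ℂ) ^ 2 * ((splits ls).map (Phi S g)).sum) ((s : ℂ) ^ 2 * ((splits ls).map (Phi S g)).sum)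
      rw [sub_add_cancel] at h4
      rw [Complex.sub_re] at h3
      have h5 : s / L * (16 ^ (n + 1) * M) ≤ 1 / L * (16 ^ (n + 1) * M) :=
        mul_le_mul_of_nonneg_right (div_le_div_of_nonneg_right hs1 (by positivity)) (by positivity)
      have h6 : (1 / L : ℝ) * (1 / L) ≤ 1 / L * M :=
        mul_le_mul_of_nonneg_left (((div_le_one (by positivity)).2 hLr).trans hM1) (by positivity)
      have e7 : ((n : ℝ) * n + 16 ^ (n + 1) + 1) / L * M =
          1 / L * ((n : ℝ) * n * M) + 1 / L * (16 ^ (n + 1) * M) + 1 / L * M := by ring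
      linarith
    rw [e g', pow_succ (1 + Γ / (L : ℝ)), ← mul_assoc]
    have hΓ0 : 0 ≤ Γ := le_trans (by positivity) hΓ
    calc R ^ n + ∑ i, (Phi S g' [List.replicate n (Sum.inl i)]).re
        ≤ M + (Fintype.card ι : ℝ) * (((n : ℝ) * n + 16 ^ (n + 1) + 1) / L * M) := by
          rw [hM, e g]
          refine (add_le_add le_rfl (Finset.sum_le_sum fun i _ => hi i)).trans_eq ?_
          simp [Finset.sum_add_distrib, hM, e g]
          ring
      _ ≤ M + Γ / L * M := by
          refine add_le_add le_rfl ?_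
          rw [← mul_assoc, ← mul_div_assoc]
          exact mul_le_mul_of_nonneg_right (div_le_div_of_nonneg_right hΓ (by positivity))
            (by linarith)
      _ = M * (1 + Γ / L) := by ring
      _ ≤ _ := mul_le_mul_of_nonneg_right hsize (by positivity)
  · -- values
    set t : ℝ := (b : ℝ) / L with ht
    set N := nls ls with hN
    have hGsplit : ((splits ls).map (target S L b)).sum =
        ((t ^ ((N - 2) / 2) : ℝ) : ℂ) * ((N : ℂ) / 2 * wks (phi S) ls) := by
      rw [hN, ← sum_splits, ← List.sum_map_mul_left]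
      refine congrArg List.sum (List.map_congr_left fun x hx => ?_)
      obtain ⟨e, -⟩ := mem_splits hx
      rw [target, show nls ls - 2 = nls x by omega]
    have hlast : ‖target S L (b + 1) ls - target S L b ls -
        (s : ℂ) ^ 2 * ((splits ls).map (target S L b)).sum‖ ≤
          2 ^ n * K * (1 / L) ^ 2 := by
      have hK0 : 0 ≤ K := (norm_nonneg _).trans (hK ls hls)
      rcases Nat.mod_two_eq_zero_or_one N with hpar | hpar
      · obtain ⟨k, hk⟩ : ∃ k, N = 2 * k := ⟨N / 2, by omega⟩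
        have hk2 : N / 2 = k ∧ (N - 2) / 2 = k - 1 := by omega
        have hN2 : ((N : ℂ) / 2) = ((k : ℝ) : ℂ) := by rw [hk]; push_cast; ring
        have ht1 : (((b + 1 : ℕ) : ℝ)) / L = t + 1 / L := by rw [ht]; push_cast; ring
        rw [hGsplit, target, target, ← hN, hk2.1, hk2.2, hN2, ← Complex.ofReal_pow, hsq, ht1]
        have e : (((t + 1 / L) ^ k : ℝ) : ℂ) * wks (phi S) ls - ((t ^ k : ℝ) : ℂ) * wks (phi S) ls -
            ((1 / L : ℝ) : ℂ) * (((t ^ (k - 1) : ℝ) : ℂ) * (((k : ℝ) : ℂ) * wks (phi S) ls)) =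
            (((t + 1 / L) ^ k - t ^ k - (k : ℝ) * (1 / L) * t ^ (k - 1) : ℝ) : ℂ) *
              wks (phi S) ls := by
          push_cast
          ring
        rw [e, norm_mul, Complex.norm_real, Real.norm_eq_abs]
        have hk' : k ≤ n := by
          have : N ≤ len ls := List.sum_le_sum fun l _ => nl_le_length l
          have := hls.2.1
          omega
        have hth : t + 1 / L ≤ 1 := by
          rw [ht, ← add_div, div_le_one (by positivity)]
          exact_mod_cast hb
        calc _ ≤ 2 ^ k * (1 / L : ℝ) ^ 2 * K :=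
              mul_le_mul (pow_step (by positivity) (by positivity) hth k) (hK ls hls)
                (norm_nonneg _) (by positivity)
          _ ≤ 2 ^ n * (1 / L : ℝ) ^ 2 * K := by
              gcongr
              norm_num
          _ = _ := by ring
      · rw [hGsplit]
        simp [target, wks_odd (phi S) ls (by rw [← hN]; exact hpar)]
        positivity
    have herr' : ‖((splits ls).map (Phi S g)).sum - ((splits ls).map (target S L b)).sum‖ ≤
        ((n : ℝ) * n) * ((b : ℝ) * E * (1 + ((n : ℝ) * n) / L) ^ b) := by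
      have e : ((splits ls).map (Phi S g)).sum - ((splits ls).map (target S L b)).sum =
          ((splits ls).map fun x => Phi S g x - target S L b x).sum := by
        rw [eq_comm, eq_sub_iff_add_eq, ← List.sum_map_add]
        simp
      rw [e]
      refine (norm_list_sum_le _ _ fun x hx => herr x (hls.split hx)).trans
        (mul_le_mul_of_nonneg_right ?_ ((norm_nonneg _).trans (herr ls hls)))
      exact_mod_cast (splits_length_le ls).trans (Nat.mul_le_mul hls.2.1 hls.2.1)
    have e : Phi S g' ls - target S L (b + 1) ls =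
        (Phi S g' ls - Phi S g ls - (s : ℂ) ^ 2 * ((splits ls).map (Phi S g)).sum) +
        (Phi S g ls - target S L b ls) +
        (s : ℂ) ^ 2 * (((splits ls).map (Phi S g)).sum - ((splits ls).map (target S L b)).sum) -
        (target S L (b + 1) ls - target S L b ls -
          (s : ℂ) ^ 2 * ((splits ls).map (target S L b)).sum) := by ring
    rw [e]
    refine (norm_sub_le _ _).trans ((add_le_add ((norm_add₃_le).trans (add_le_add (add_le_add
      (hstep ls hls) (herr ls hls)) (le_refl _))) hlast).trans ?_)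
    rw [norm_mul, norm_pow, Complex.norm_real, Real.norm_eq_abs, abs_of_nonneg hs0, hsq]
    have hMB : M ≤ B := hsize.trans hB
    have hK0 : 0 ≤ K := (norm_nonneg _).trans (hK ls hls)
    have hE' : s / L * (16 ^ (n + 1) * M) + 1 / L * (1 / L) + 2 ^ n * K * (1 / L) ^ 2 ≤ E := by
      refine le_trans ?_ hE
      have h1 : s / L * (16 ^ (n + 1) * M) ≤ s / L * (16 ^ (n + 1) * B) := by gcongr
      have h2 : (1 / L : ℝ) * (1 / L) ≤ s / L := by
        rw [div_eq_mul_inv s, mul_comm s, one_div (L : ℝ)]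
        exact mul_le_mul_of_nonneg_left (by rwa [one_div] at hsL) (by positivity)
      have h3 : 2 ^ n * K * (1 / L : ℝ) ^ 2 ≤ 2 ^ n * K * (s / L) :=
        mul_le_mul_of_nonneg_left (by rw [sq]; exact h2) (by positivity)
      linarith
    set w : ℝ := (n : ℝ) * n with hw
    set X : ℝ := (1 + w / L) ^ b with hX
    have hX1 : 1 ≤ X := one_le_pow₀ (le_add_of_nonneg_right (by positivity))
    have hwL : 0 ≤ w / L := by positivity
    have hE0 : 0 ≤ E := le_trans (by positivity) hE'
    have h8 : 1 / (L : ℝ) * ‖((splits ls).map (Phi S g)).sum -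
        ((splits ls).map (target S L b)).sum‖ ≤ w / L * ((b : ℝ) * E * X) := by
      calc _ ≤ 1 / (L : ℝ) * (w * ((b : ℝ) * E * X)) :=
            mul_le_mul_of_nonneg_left herr' (by positivity)
        _ = _ := by ring
    have h9 : E ≤ E * (X * (1 + w / L)) := le_mul_of_one_le_right hE0 (by nlinarith)
    rw [pow_succ (1 + w / (L : ℝ)) b, Nat.cast_add, Nat.cast_one, ← hX]
    have e9 : ((b : ℝ) + 1) * E * (X * (1 + w / L)) =
        (b : ℝ) * E * X + w / L * ((b : ℝ) * E * X) + E * (X * (1 + w / L)) := by ring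
    linarith

/-- The carriers. -/
theorem carriers (C : Chain S) (F : Finset A) (d : ℕ) {η : ℝ} (hη : 0 < η) :
    ∃ (κ : Type) (_ : Fintype κ) (_ : Nonempty κ) (g : κ → ι → A),
      (∀ w i, IsSelfAdjoint (g w i) ∧ g w i ∈ StarAlgebra.adjoin ℂ C.units) ∧
      WickNear S.toStd (F : Set A) g d η := by
  classical
  set m := d + 1 with hm
  set n := 2 ^ (m + 1) with hn
  have hn0 : 0 < n := Nat.two_pow_pos _
  set R : ℝ := 2 + ∑ x ∈ F, ‖x‖ with hR
  have hR2 : 2 ≤ R := le_add_of_nonneg_right (by positivity)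
  have hFR : ∀ x ∈ F, ‖x‖ ≤ R := fun x hx => by
    have := Finset.single_le_sum (f := fun x => ‖x‖) (fun _ _ => norm_nonneg _) hx
    linarith
  set alph := (Finset.univ : Finset ι).image Sum.inl ∪ F.image Sum.inr
  set K : ℝ := ∑ ls ∈ listsLE (listsLE alph n) (n + 1), ‖wks (phi S) ls‖ with hK
  have hKb : ∀ ls : List (List (ι ⊕ A)), Adm F n ls → ‖wks (phi S) ls‖ ≤ K := by
    intro ls hls
    refine Finset.single_le_sum (f := fun ls => ‖wks (phi S) ls‖) (fun _ _ => norm_nonneg _)
      (mem_listsLE _ (by have := hls.1; omega) fun l hl => mem_listsLE _ ?_ fun z hz => ?_)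
    · exact (List.le_sum_of_mem (List.mem_map_of_mem hl)).trans hls.2.1
    · cases z with
      | inl i => simp [alph]
      | inr x => simp [alph, hls.2.2 l hl x hz]
  set Γ : ℝ := (Fintype.card ι : ℝ) * ((n : ℝ) * n + 16 ^ (n + 1) + 1) with hΓ
  set B : ℝ := R ^ n * Real.exp Γ with hB
  set c : ℝ := (16 ^ (n + 1) * B + 1 + 2 ^ n * K) * Real.exp ((n : ℝ) * n) with hc
  have hc0 : 0 < c := by positivity
  obtain ⟨L, hL⟩ := exists_nat_ge ((c / η) ^ 2 + 1)
  have hL0 : 0 < L := by
    have : (0 : ℝ) < L := lt_of_lt_of_le (by positivity) hL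
    exact_mod_cast this
  set E : ℝ := (16 ^ (n + 1) * B + 1 + 2 ^ n * K) * ((Real.sqrt L)⁻¹ / L) with hE
  have hbuilt : ∀ b ≤ L, Built (ι := ι) S C F n R Γ E L b := by
    intro b
    induction b with
    | zero => exact fun _ => built_zero S C F n hn0 R Γ E L
    | succ b ih =>
      intro hb
      exact built_succ S C F (by omega) hR2 hFR hKb le_rfl hb
        (mul_le_mul_of_nonneg_left (one_add_pow_le (by positivity) (by omega) hL0) (by positivity))
        le_rfl (ih (by omega))
  obtain ⟨κ, i1, i2, g, hg, -, herr⟩ := hbuilt L le_rfl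
  refine ⟨κ, i1, i2, g, hg, fun l hl hF => ?_⟩
  have hd : d ≤ n := by
    have := Nat.lt_two_pow_self (n := d)
    have : 2 ^ d ≤ n := Nat.pow_le_pow_right (by norm_num) (by omega)
    omega
  have h := herr [l] ⟨by simp [len]; omega, by simp [len]; omega, by simpa using hF⟩
  have hLne : (L : ℝ) ≠ 0 := Nat.cast_ne_zero.2 hL0.ne'
  simp only [Phi, Z0, mul_one, target, div_self hLne, one_pow, Complex.ofReal_one, one_mul, wks,
    List.map_cons, List.map_nil, List.prod_cons, List.prod_nil, mean, smul_eq_mul] at h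
  refine le_trans ?_ (h.trans ?_)
  · exact le_of_eq rfl
  have h1 := one_add_pow_le (x := (n : ℝ) * n) (by positivity) (le_refl L) hL0
  have hsq : c / η ≤ Real.sqrt L := by
    rw [← Real.sqrt_sq (by positivity : 0 ≤ c / η)]
    exact Real.sqrt_le_sqrt (by linarith)
  calc (L : ℝ) * E * (1 + (n : ℝ) * n / L) ^ L ≤ (L : ℝ) * E * Real.exp ((n : ℝ) * n) := by
        gcongr
    _ = c * (Real.sqrt L)⁻¹ := by rw [hE, hc]; field_simp
    _ ≤ η := by
        rw [mul_inv_le_iff₀ (Real.sqrt_pos.2 (by positivity)), mul_comm, ← div_le_iff₀ hη] at *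
        exact hsq

end VP085.Carrier

namespace VP085

theorem carrierSpec : CarrierSpec := fun _ _ _ _ _ S C F d _ hη => Carrier.carriers S C F d hη

end VP085
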