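import Vale.Agent.P085.Carrier.Wick
import Vale.Agent.P085.Carrier.Level

/-!
P085, carriers: adding one level to the semicircular letters changes the product of the traces by
the sum over the pairs, up to a third order term bounded by the moments of the letters.
-/

namespace VP085.Carrier

open VP086

variable {A : Type} [CStarAlgebra A] {ι : Type}

/-- The value of a word. -/
noncomputable def ev (g : ι → A) (l : List (ι ⊕ A)) : A := (l.map (Sum.elim g id)).prod

@[simp] theorem ev_nil (g : ι → A) : ev g ([] : List (ι ⊕ A)) = 1 := rfl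

@[simp] theorem ev_cons (g : ι → A) (z : ι ⊕ A) (l : List (ι ⊕ A)) :
    ev g (z :: l) = Sum.elim g id z * ev g l := by simp [ev]

theorem ev_append (g : ι → A) (U U' : List (ι ⊕ A)) : ev g (U ++ U') = ev g U * ev g U' := by
  simp [ev]

theorem ev_snoc (g : ι → A) (p : List (ι ⊕ A)) (z : ι ⊕ A) :
    ev g (p ++ [z]) = ev g p * Sum.elim g id z := by simp [ev_append]

/-- The first order term. -/
noncomputable def T1 (g v : ι → A) : List (ι ⊕ A) → A
  | [] => 0
  | Sum.inr x :: U => x * T1 g v U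
  | Sum.inl i :: U => g i * T1 g v U + v i * ev g U

/-- The second order term. -/
noncomputable def T2 (g v : ι → A) : List (ι ⊕ A) → A
  | [] => 0
  | Sum.inr x :: U => x * T2 g v U
  | Sum.inl i :: U => g i * T2 g v U + v i * T1 g v U

/-- The remainder. -/
noncomputable def T3 (g v : ι → A) (s : ℂ) : List (ι ⊕ A) → A
  | [] => 0
  | Sum.inr x :: U => x * T3 g v s U
  | Sum.inl i :: U => g i * T3 g v s U + v i * T2 g v U + s • (v i * T3 g v s U)

theorem ev_expand (g v : ι → A) (s : ℂ) (l : List (ι ⊕ A)) :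
    ev (fun i => g i + s • v i) l =
      ev g l + s • T1 g v l + s ^ 2 • T2 g v l + s ^ 3 • T3 g v s l := by
  induction l with
  | nil => simp [T1, T2, T3]
  | cons z l ih =>
    cases z with
    | inr x =>
      simp only [ev_cons, Sum.elim_inr, id, ih, T1, T2, T3, mul_add, mul_smul_comm]
    | inl i =>
      simp only [ev_cons, Sum.elim_inl, ih, T1, T2, T3, mul_add, add_mul, mul_smul_comm,
        smul_mul_assoc, smul_add, smul_smul]
      module

variable {H : Type} [NormedAddCommGroup H] [InnerProductSpace ℂ H] (S : Std A H)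

/-- The zeroth order term of a product of traces. -/
noncomputable def Z0 (g : ι → A) : List (List (ι ⊕ A)) → ℂ
  | [] => 1
  | l :: ls => S.τ (ev g l) * Z0 g ls

/-- The first order term of a product of traces. -/
noncomputable def Z1 (g v : ι → A) : List (List (ι ⊕ A)) → ℂ
  | [] => 0
  | l :: ls => S.τ (ev g l) * Z1 g v ls + S.τ (T1 g v l) * Z0 S g ls

/-- The second order term of a product of traces. -/
noncomputable def Z2 (g v : ι → A) : List (List (ι ⊕ A)) → ℂ
  | [] => 0
  | l :: ls => S.τ (ev g l) * Z2 g v ls + S.τ (T1 g v l) * Z1 S g v ls +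
      S.τ (T2 g v l) * Z0 S g ls

/-- The remainder of a product of traces. -/
noncomputable def Z3 (g v : ι → A) (s : ℂ) : List (List (ι ⊕ A)) → ℂ
  | [] => 0
  | l :: ls => S.τ (ev g l) * Z3 g v s ls + S.τ (T1 g v l) * Z2 S g v ls +
      S.τ (T2 g v l) * Z1 S g v ls + S.τ (T3 g v s l) * Z0 S g ls +
      s * (S.τ (T1 g v l) * Z3 g v s ls + S.τ (T2 g v l) * Z2 S g v ls +
        S.τ (T3 g v s l) * Z1 S g v ls) +
      s ^ 2 * (S.τ (T2 g v l) * Z3 g v s ls + S.τ (T3 g v s l) * Z2 S g v ls) +
      s ^ 3 * (S.τ (T3 g v s l) * Z3 g v s ls)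

theorem Z0_eq (g : ι → A) (ls : List (List (ι ⊕ A))) :
    Z0 S g ls = (ls.map fun l => S.τ (ev g l)).prod := by
  induction ls with
  | nil => rfl
  | cons l ls ih => simp [Z0, ih]

theorem Z_expand (g v : ι → A) (s : ℂ) (ls : List (List (ι ⊕ A))) :
    Z0 S (fun i => g i + s • v i) ls =
      Z0 S g ls + s * Z1 S g v ls + s ^ 2 * Z2 S g v ls + s ^ 3 * Z3 S g v s ls := by
  induction ls with
  | nil => simp [Z0, Z1, Z2, Z3]
  | cons l ls ih =>
    simp only [Z0, Z1, Z2, Z3, ih, ev_expand, tau_add, tau_smul]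
    ring

/-- A letter with small high moment. -/
def Good (m : ℕ) (β : ℝ) (a : A) : Prop :=
  (S.τ ((star a * a) ^ 2 ^ m)).re ≤ β ^ 2 ^ (m + 1)

section Bounds

variable {m : ℕ} {β : ℝ} {g v : ι → A} {s : ℂ} (hm : 1 ≤ m) (hβ : 1 ≤ β)
  (hg : ∀ i, Good S m β (g i)) (hv : ∀ i, Good S m β (v i)) (hs : ‖s‖ ≤ 1)

include hm hβ hg hv hs

theorem T_bound (U : List (ι ⊕ A)) (hU : ∀ x, Sum.inr x ∈ U → Good S m β x) :
    ∀ u : List A, (∀ a ∈ u, Good S m β a) → u.length + U.length ≤ 2 ^ (m + 1) →
      ‖S.τ (u.prod * ev g U)‖ ≤ β ^ (u.length + U.length) ∧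
      ‖S.τ (u.prod * T1 g v U)‖ ≤ 8 ^ U.length * β ^ (u.length + U.length) ∧
      ‖S.τ (u.prod * T2 g v U)‖ ≤ 8 ^ U.length * β ^ (u.length + U.length) ∧
      ‖S.τ (u.prod * T3 g v s U)‖ ≤ 8 ^ U.length * β ^ (u.length + U.length) := by
  have hβ0 : 0 < β := by linarith
  induction U with
  | nil =>
    intro u hu hl
    simp only [ev_nil, T1, T2, T3, mul_one, mul_zero, tau_zero, norm_zero, List.length_nil,
      Nat.add_zero, pow_zero, one_mul]
    exact ⟨word_bound S m hm hβ0 u (by simpa using hl) hu, by positivity, by positivity,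
      by positivity⟩
  | cons z U ih =>
    intro u hu hl
    have ih' := ih fun x hx => hU x (List.mem_cons_of_mem _ hx)
    have el : u.length + (z :: U).length = (u.length + 1) + U.length := by simp; omega
    have step : ∀ a, Good S m β a → (u ++ [a]).prod = u.prod * a ∧
        ‖S.τ ((u ++ [a]).prod * ev g U)‖ ≤ β ^ (u.length + (z :: U).length) ∧
        ‖S.τ ((u ++ [a]).prod * T1 g v U)‖ ≤ 8 ^ U.length * β ^ (u.length + (z :: U).length) ∧
        ‖S.τ ((u ++ [a]).prod * T2 g v U)‖ ≤ 8 ^ U.length * β ^ (u.length + (z :: U).length) ∧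
        ‖S.τ ((u ++ [a]).prod * T3 g v s U)‖ ≤
          8 ^ U.length * β ^ (u.length + (z :: U).length) := by
      intro a ha
      have := ih' (u ++ [a]) (by
        intro b hb
        rcases List.mem_append.1 hb with hb | hb
        · exact hu b hb
        · rw [List.mem_singleton.1 hb]; exact ha) (by simp at hl ⊢; omega)
      rw [List.length_append, List.length_singleton] at this
      rw [el]
      exact ⟨by simp, this⟩
    set B := β ^ (u.length + (z :: U).length) with hB
    have hB0 : 0 ≤ B := by positivity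
    have h8 : (1 : ℝ) ≤ 8 ^ U.length := one_le_pow₀ (by norm_num)
    rw [List.length_cons, pow_succ]
    cases z with
    | inr x =>
      obtain ⟨e, b0, b1, b2, b3⟩ := step x (hU x (by simp))
      rw [e] at b0 b1 b2 b3
      simp only [ev_cons, Sum.elim_inr, id, T1, T2, T3, ← mul_assoc]
      exact ⟨b0, by nlinarith, by nlinarith, by nlinarith⟩
    | inl i =>
      obtain ⟨e, b0, b1, b2, b3⟩ := step (g i) (hg i)
      obtain ⟨e', c0, c1, c2, c3⟩ := step (v i) (hv i)
      rw [e] at b0 b1 b2 b3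
      rw [e'] at c0 c1 c2 c3
      simp only [ev_cons, Sum.elim_inl, T1, T2, T3, mul_add, mul_smul_comm, ← mul_assoc, tau_add,
        tau_smul]
      refine ⟨b0, (norm_add_le _ _).trans (by nlinarith), (norm_add_le _ _).trans (by nlinarith),
        (norm_add₃_le).trans ?_⟩
      rw [norm_mul]
      nlinarith [mul_le_mul hs c3 (norm_nonneg _) zero_le_one]

theorem Z_bound (ls : List (List (ι ⊕ A))) (hls : ∀ l ∈ ls, ∀ x, Sum.inr x ∈ l → Good S m β x)
    (hlen : len ls ≤ 2 ^ (m + 1)) :
    ‖Z0 S g ls‖ ≤ β ^ len ls ∧ ‖Z1 S g v ls‖ ≤ 16 ^ (len ls + ls.length) * β ^ len ls ∧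
      ‖Z2 S g v ls‖ ≤ 16 ^ (len ls + ls.length) * β ^ len ls ∧
      ‖Z3 S g v s ls‖ ≤ 16 ^ (len ls + ls.length) * β ^ len ls := by
  induction ls with
  | nil => simp [Z0, Z1, Z2, Z3, len]
  | cons l ls ih =>
    have el : len (l :: ls) = l.length + len ls := by simp [len]
    obtain ⟨d0, d1, d2, d3⟩ := ih (fun l' hl' => hls l' (List.mem_cons_of_mem _ hl')) (by omega)
    obtain ⟨b0, b1, b2, b3⟩ := T_bound S hm hβ hg hv hs l (hls l (by simp)) [] (by simp)
      (by simp; omega)
    simp only [List.prod_nil, one_mul, List.length_nil, Nat.zero_add] at b0 b1 b2 b3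
    have e16 : (16 : ℝ) ^ (len (l :: ls) + (l :: ls).length) =
        16 ^ l.length * 16 * 16 ^ (len ls + ls.length) := by
      rw [el, List.length_cons, ← pow_succ, ← pow_add]
      congr 1
      omega
    have eβ : β ^ len (l :: ls) = β ^ l.length * β ^ len ls := by rw [el, pow_add]
    rw [e16, eβ]
    set c : ℝ := 8 ^ l.length with hc
    set C : ℝ := 16 ^ (len ls + ls.length) with hC
    set b : ℝ := β ^ l.length with hb
    set D : ℝ := β ^ len ls with hD
    have hc1 : 1 ≤ c := one_le_pow₀ (by norm_num)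
    have hC1 : 1 ≤ C := one_le_pow₀ (by norm_num)
    have hcc : c ≤ 16 ^ l.length := pow_le_pow_left₀ (by norm_num) (by norm_num) _
    have hb0 : 0 ≤ b := by positivity
    have hD0 : 0 ≤ D := by positivity
    have hcb : b ≤ c * b := le_mul_of_one_le_left hb0 hc1
    have hCD : D ≤ C * D := le_mul_of_one_le_left hD0 hC1
    have key : ∀ x y : ℂ, ‖x‖ ≤ c * b → ‖y‖ ≤ C * D → ‖x * y‖ ≤ c * b * (C * D) := by
      intro x y hx hy
      rw [norm_mul]
      exact mul_le_mul hx hy (norm_nonneg _) (by positivity)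
    have keys : ∀ (k : ℕ) (z : ℂ) (M : ℝ), ‖z‖ ≤ M → ‖s ^ k * z‖ ≤ M := by
      intro k z M hz
      rw [norm_mul, norm_pow]
      exact (mul_le_of_le_one_left (norm_nonneg _) (pow_le_one₀ (norm_nonneg _) hs)).trans hz
    have fin : 10 * (c * b * (C * D)) ≤ 16 ^ l.length * 16 * C * (b * D) := by
      have := mul_le_mul_of_nonneg_right hcc (show (0:ℝ) ≤ C * (b * D) by positivity)
      nlinarith [show (0:ℝ) ≤ 16 ^ l.length * (C * (b * D)) by positivity]
    have fin' : 0 ≤ c * b * (C * D) := by positivity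
    refine ⟨?_, ?_, ?_, ?_⟩
    · rw [Z0, norm_mul]
      exact mul_le_mul b0 d0 (norm_nonneg _) hb0
    · rw [Z1]
      refine (norm_add_le _ _).trans (le_trans ?_ fin)
      nlinarith [key _ _ (b0.trans hcb) d1, key _ _ b1 (d0.trans hCD)]
    · rw [Z2]
      refine (norm_add₃_le).trans (le_trans ?_ fin)
      nlinarith [key _ _ (b0.trans hcb) d2, key _ _ b1 d1, key _ _ b2 (d0.trans hCD)]
    · rw [Z3]
      refine le_trans ?_ fin
      have t0 := key _ _ (b0.trans hcb) d3
      have t1 := key _ _ b1 d2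
      have t2 := key _ _ b2 d1
      have t3 := key _ _ b3 (d0.trans hCD)
      have v1 : ‖S.τ (T1 g v l) * Z3 S g v s ls + S.τ (T2 g v l) * Z2 S g v ls +
          S.τ (T3 g v s l) * Z1 S g v ls‖ ≤ 3 * (c * b * (C * D)) :=
        (norm_add₃_le).trans (by linarith [key _ _ b1 d3, key _ _ b2 d2, key _ _ b3 d1])
      have u1 := keys 1 _ _ v1
      rw [pow_one] at u1
      have v2 : ‖S.τ (T2 g v l) * Z3 S g v s ls + S.τ (T3 g v s l) * Z2 S g v ls‖ ≤
          2 * (c * b * (C * D)) :=
        (norm_add_le _ _).trans (by linarith [key _ _ b2 d3, key _ _ b3 d2])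
      have u2 := keys 2 _ _ v2
      have u3 := keys 3 _ _ (key _ _ b3 d3)
      have n1 : ∀ x1 x2 x3 x4 x5 x6 x7 : ℂ, ‖x1 + x2 + x3 + x4 + x5 + x6 + x7‖ ≤
          ‖x1‖ + ‖x2‖ + ‖x3‖ + ‖x4‖ + ‖x5‖ + ‖x6‖ + ‖x7‖ := fun x1 x2 x3 x4 x5 x6 x7 => by
        linarith [norm_add_le (x1 + x2 + x3 + x4 + x5 + x6) x7,
          norm_add_le (x1 + x2 + x3 + x4 + x5) x6, norm_add_le (x1 + x2 + x3 + x4) x5,
          norm_add_le (x1 + x2 + x3) x4, norm_add_le (x1 + x2) x3, norm_add_le x1 x2]
      refine (n1 _ _ _ _ _ _ _).trans ?_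
      linarith

end Bounds

variable [DecidableEq ι] [Fintype ι] {P : Type} [Fintype P] (V : P → A)

/-- The mean of a function of one coordinate. -/
theorem mean_eval [Nonempty P] {E : Type} [AddCommMonoid E] [Module ℂ E] (i : ι) (f : P → E) :
    mean (fun q : ι → P => f (q i)) = mean f := by
  have h : mean (fun q : ι → P => f (q i)) =
      mean fun r : P × ({j // j ≠ i} → P) => f r.1 := by
    simp only [mean, Fintype.card_congr (Equiv.piSplitAt i fun _ => P)]
    congr 1
    exact Fintype.sum_equiv (Equiv.piSplitAt i fun _ => P) _ _ fun q => rfl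
  rw [h, mean_prod]
  simp only [mean, Finset.sum_const, Finset.card_univ, ← Nat.cast_smul_eq_nsmul ℂ, smul_smul]
  rw [inv_mul_cancel₀ (Nat.cast_ne_zero.2 Fintype.card_ne_zero)]
  simp

theorem sum_eval_zero {E : Type} [AddCommMonoid E] (i : ι) (f : (ι → P) → E)
    (h : ∀ q : ι → P, ∑ p, f (Function.update q i p) = 0) : ∑ q, f q = 0 := by
  rw [← Equiv.sum_comp (Equiv.piSplitAt i fun _ => P).symm f, Fintype.sum_prod_type,
    Finset.sum_comm]
  refine Finset.sum_eq_zero fun rest _ => ?_
  rcases isEmpty_or_nonempty P with hP | hP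
  · simp
  obtain ⟨p0⟩ := hP
  rw [← h ((Equiv.piSplitAt i fun _ => P).symm (p0, rest))]
  refine Finset.sum_congr rfl fun p _ => congrArg f ?_
  funext j
  by_cases hj : j = i
  · subst hj; simp
  · simp [hj]

/-- What the step needs from the new level, for the words of length at most `n` over `F`. -/
structure StepHyp (g : ι → A) (F : Set A) (n : ℕ) (Ω δ : ℝ) : Prop where
  centred : ∑ p, V p = 0
  one_le : 1 ≤ Ω
  δ_nonneg : 0 ≤ δ
  norm_ev : ∀ l : List (ι ⊕ A), l.length ≤ n → (∀ x, Sum.inr x ∈ l → x ∈ F) → ‖ev g l‖ ≤ Ω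
  scal : ∀ l : List (ι ⊕ A), l.length ≤ n → (∀ x, Sum.inr x ∈ l → x ∈ F) →
    ‖S.ι (mean (fun p => V p * ev g l * V p) - S.τ (ev g l) • (1 : A))‖ ≤ δ
  small : ∀ a, rmean (fun p => ‖S.τ (V p * a)‖ ^ 2) ≤ δ * ‖S.ι a‖ ^ 2

variable {S V} {g : ι → A} {F : Set A} {n : ℕ} {Ω δ : ℝ} (h : StepHyp S V g F n Ω δ)

include h

theorem sum_T1 (l : List (ι ⊕ A)) : ∑ q : ι → P, T1 g (fun i => V (q i)) l = 0 := by
  induction l with
  | nil => simp [T1]
  | cons z l ih =>
    cases z with
    | inr x => simp only [T1, ← Finset.mul_sum, ih, mul_zero]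
    | inl i =>
      simp only [T1, Finset.sum_add_distrib, ← Finset.mul_sum, ih, mul_zero, zero_add]
      refine sum_eval_zero i _ fun q => ?_
      simp only [Function.update_self, ← Finset.sum_mul, h.centred, zero_mul]

theorem T1_sq [Nonempty P] (U : List (ι ⊕ A)) :
    ∀ p : List (ι ⊕ A), p.length + U.length ≤ n → (∀ x, Sum.inr x ∈ p ++ U → x ∈ F) →
      rmean (fun q : ι → P => ‖S.τ (ev g p * T1 g (fun i => V (q i)) U)‖ ^ 2) ≤
        4 ^ U.length * (δ * Ω ^ 2) := by
  have hpos : 0 ≤ δ * Ω ^ 2 := mul_nonneg h.δ_nonneg (sq_nonneg _)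
  induction U with
  | nil => intro p _ _; simpa [T1, tau_zero, rmean] using hpos
  | cons z U ih =>
    intro p hl hF
    have ih' := ih (p ++ [z]) (by simp at hl ⊢; omega) (by simpa using hF)
    rw [List.length_cons, pow_succ]
    cases z with
    | inr x =>
      simp only [T1, ← mul_assoc]
      rw [ev_snoc] at ih'
      simp only [Sum.elim_inr, id] at ih'
      refine ih'.trans ?_
      nlinarith [mul_nonneg (show (0:ℝ) ≤ 4 ^ U.length by positivity) hpos]
    | inl i =>
      rw [ev_snoc] at ih'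
      simp only [Sum.elim_inl] at ih'
      have hb : rmean (fun q : ι → P => ‖S.τ (ev g p * V (q i) * ev g U)‖ ^ 2) ≤ δ * Ω ^ 2 := by
        have e : ∀ q : ι → P, S.τ (ev g p * V (q i) * ev g U) =
            S.τ (V (q i) * ev g (U ++ p)) := fun q => by
          rw [mul_assoc, tau_comm' S, ev_append, mul_assoc]
        have e2 : rmean (fun q : ι → P => ‖S.τ (V (q i) * ev g (U ++ p))‖ ^ 2) =
            rmean fun r => ‖S.τ (V r * ev g (U ++ p))‖ ^ 2 := by
          have := mean_eval (P := P) i fun r => ((‖S.τ (V r * ev g (U ++ p))‖ ^ 2 : ℝ) : ℂ)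
          simp only [mean, smul_eq_mul] at this
          apply Complex.ofReal_injective
          simp only [rmean, Complex.ofReal_mul, Complex.ofReal_inv, Complex.ofReal_natCast,
            Complex.ofReal_sum]
          exact this
        simp only [e, e2]
        refine (h.small _).trans (mul_le_mul_of_nonneg_left (pow_le_pow_left₀ (norm_nonneg _)
          ((norm_ι_le S _).trans (h.norm_ev _ (by simp at hl ⊢; omega) ?_)) 2) h.δ_nonneg)
        intro x hx
        refine hF x ?_
        simp only [List.mem_append, List.mem_cons] at hx ⊢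
        tauto
      have hpt : ∀ q : ι → P, ‖S.τ (ev g p * T1 g (fun i => V (q i)) (Sum.inl i :: U))‖ ^ 2 ≤
          2 * ‖S.τ (ev g p * g i * T1 g (fun i => V (q i)) U)‖ ^ 2 +
            2 * ‖S.τ (ev g p * V (q i) * ev g U)‖ ^ 2 := fun q => by
        simp only [T1, mul_add, ← mul_assoc, tau_add]
        have := pow_le_pow_left₀ (norm_nonneg _) (norm_add_le
          (S.τ (ev g p * g i * T1 g (fun i => V (q i)) U)) (S.τ (ev g p * V (q i) * ev g U))) 2
        refine this.trans ?_
        nlinarith [sq_nonneg (‖S.τ (ev g p * g i * T1 g (fun i => V (q i)) U)‖ -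
          ‖S.τ (ev g p * V (q i) * ev g U)‖)]
      refine (rmean_le hpt).trans ?_
      have e3 : ∀ a b : (ι → P) → ℝ, rmean (fun q => 2 * a q + 2 * b q) =
          2 * rmean a + 2 * rmean b := fun a b => by
        simp [rmean, Finset.sum_add_distrib, ← Finset.mul_sum]; ring
      rw [e3]
      nlinarith [mul_le_mul_of_nonneg_right
        (one_le_pow₀ (show (1:ℝ) ≤ 4 by norm_num) : (1:ℝ) ≤ 4 ^ U.length) hpos]

theorem mean_pair [Nonempty P] (i : ι) (p m U : List (ι ⊕ A))
    (hl : p.length + m.length + U.length ≤ n) (hF : ∀ x, Sum.inr x ∈ p ++ m ++ U → x ∈ F)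
    (j : ι) :
    ‖mean (fun q : ι → P => S.τ (ev g p * V (q i) * ev g m * V (q j) * ev g U)) -
      if j = i then S.τ (ev g m) * S.τ (ev g (p ++ U)) else 0‖ ≤ δ * Ω ^ 2 := by
  split_ifs with hji
  · subst hji
    rw [mean_eval j fun r => S.τ (ev g p * V r * ev g m * V r * ev g U)]
    have e : mean (fun r => S.τ (ev g p * V r * ev g m * V r * ev g U)) -
        S.τ (ev g m) * S.τ (ev g (p ++ U)) =
        S.τ (ev g p * (mean (fun r => V r * ev g m * V r) - S.τ (ev g m) • (1 : A)) * ev g U) := by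
      rw [mul_sub, sub_mul, tau_sub, ev_append]
      simp [mean, Finset.mul_sum, Finset.sum_mul, tau_smul, tau_sum, mul_assoc]
    rw [e]
    have h0 : ∀ y : A, ‖S.τ y‖ ≤ ‖S.ι y‖ := fun y => by
      refine (norm_inner_le_norm _ _).trans ?_
      rw [S.norm_one, one_mul]
    have hp : ‖ev g p‖ ≤ Ω := h.norm_ev p (by omega) fun x hx => hF x (by simp [hx])
    have hU : ‖ev g U‖ ≤ Ω := h.norm_ev U (by omega) fun x hx => hF x (by simp [hx])
    have hm' := h.scal m (by omega) fun x hx => hF x (by simp [hx])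
    refine (h0 _).trans ((S.right_le _ _).trans ?_)
    calc ‖ev g U‖ * ‖S.ι (ev g p * (mean (fun r => V r * ev g m * V r) -
          S.τ (ev g m) • (1 : A)))‖ ≤ Ω * (Ω * δ) :=
          mul_le_mul hU ((S.left_le _ _).trans
            (mul_le_mul hp hm' (norm_nonneg _) ((norm_nonneg _).trans hp)))
            (norm_nonneg _) ((norm_nonneg _).trans hU)
      _ = δ * Ω ^ 2 := by ring
  · have e : ∑ q : ι → P, ev g p * V (q i) * ev g m * V (q j) * ev g U = 0 := by
      refine sum_eval_zero i _ fun q => ?_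
      simp only [Function.update_self, Function.update_of_ne hji, ← Finset.sum_mul,
        ← Finset.mul_sum, h.centred, mul_zero, zero_mul]
    simp only [mean, ← tau_sum, e, tau_zero, smul_zero, sub_zero, norm_zero]
    exact mul_nonneg h.δ_nonneg (sq_nonneg _)

theorem T1_inner [Nonempty P] (i : ι) (U : List (ι ⊕ A)) :
    ∀ p m : List (ι ⊕ A), p.length + m.length + U.length ≤ n →
      (∀ x, Sum.inr x ∈ p ++ m ++ U → x ∈ F) →
      ‖mean (fun q : ι → P => S.τ (ev g p * V (q i) * ev g m * T1 g (fun i => V (q i)) U)) -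
        ((cuts i U).map fun c => S.τ (ev g (m ++ c.1)) * S.τ (ev g (p ++ c.2))).sum‖ ≤
        U.length * (δ * Ω ^ 2) := by
  set ε := δ * Ω ^ 2 with hε
  induction U with
  | nil => intro p m _ _; simp [T1, cuts, tau_zero, mean]
  | cons z U ih =>
    intro p m hl hF
    have ih' := ih p (m ++ [z]) (by simp at hl ⊢; omega) (by simpa using hF)
    rw [ev_snoc] at ih'
    cases z with
    | inr x =>
      simp only [Sum.elim_inr, id] at ih'
      simp only [T1, ← mul_assoc, cuts, List.map_map, Function.comp_def]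
      simp only [List.append_assoc, List.cons_append, List.nil_append, ← mul_assoc] at ih'
      refine ih'.trans (mul_le_mul_of_nonneg_right ?_ (mul_nonneg h.δ_nonneg (sq_nonneg _)))
      simp
    | inl j =>
      simp only [Sum.elim_inl, ← mul_assoc, List.append_assoc, List.cons_append,
        List.nil_append] at ih'
      have hp := mean_pair h i p m U (by simp at hl ⊢; omega) (fun x hx => hF x (by
        simp only [List.mem_append, List.mem_cons] at hx ⊢; tauto)) j
      simp only [T1, mul_add, ← mul_assoc, tau_add, cuts, List.map_append, List.sum_append,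
        List.map_map, Function.comp_def, List.length_cons, Nat.cast_add, Nat.cast_one]
      have e : ((if j = i then [(([] : List (ι ⊕ A)), U)] else []).map fun c =>
          S.τ (ev g (m ++ c.1)) * S.τ (ev g (p ++ c.2))).sum =
          if j = i then S.τ (ev g m) * S.τ (ev g (p ++ U)) else 0 := by
        split_ifs <;> simp
      rw [e]
      have e2 : ∀ a b : (ι → P) → ℂ, mean (fun q => a q + b q) = mean a + mean b := fun a b => by
        simp [mean, Finset.sum_add_distrib, mul_add]
      rw [e2, add_comm (ite _ _ _), add_sub_add_comm, add_mul, one_mul]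
      exact (norm_add_le _ _).trans (add_le_add ih' hp)

theorem T2_mean [Nonempty P] (U : List (ι ⊕ A)) :
    ∀ p : List (ι ⊕ A), p.length + U.length ≤ n → (∀ x, Sum.inr x ∈ p ++ U → x ∈ F) →
      ‖mean (fun q : ι → P => S.τ (ev g p * T2 g (fun i => V (q i)) U)) -
        ((pairs p U).map fun c => S.τ (ev g c.1) * S.τ (ev g c.2)).sum‖ ≤
        (U.length * U.length : ℕ) * (δ * Ω ^ 2) := by
  set ε := δ * Ω ^ 2 with hε
  have hpos : 0 ≤ ε := mul_nonneg h.δ_nonneg (sq_nonneg _)
  induction U with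
  | nil => intro p _ _; simp [T2, pairs, tau_zero, mean]
  | cons z U ih =>
    intro p hl hF
    have ih' := ih (p ++ [z]) (by simp at hl ⊢; omega) (by simpa using hF)
    rw [ev_snoc] at ih'
    cases z with
    | inr x =>
      simp only [Sum.elim_inr, id] at ih'
      simp only [T2, ← mul_assoc, pairs]
      refine ih'.trans (mul_le_mul_of_nonneg_right ?_ hpos)
      exact_mod_cast Nat.mul_le_mul (Nat.le_succ _) (Nat.le_succ _)
    | inl j =>
      simp only [Sum.elim_inl] at ih'
      have h1 := T1_inner h j U p [] (by simp at hl ⊢; omega) (fun x hx => hF x (by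
        simp only [List.append_nil, List.mem_append, List.mem_cons] at hx ⊢; tauto))
      simp only [ev_nil, mul_one, List.nil_append] at h1
      simp only [T2, mul_add, ← mul_assoc, tau_add, pairs, List.map_append, List.sum_append,
        List.map_map, Function.comp_def]
      have e2 : ∀ a b : (ι → P) → ℂ, mean (fun q => a q + b q) = mean a + mean b := fun a b => by
        simp [mean, Finset.sum_add_distrib, mul_add]
      rw [e2, add_comm (List.sum _), add_sub_add_comm]
      refine (norm_add_le _ _).trans ((add_le_add ih' h1).trans ?_)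
      rw [← add_mul]
      refine mul_le_mul_of_nonneg_right ?_ hpos
      rw [List.length_cons]
      exact_mod_cast (show U.length * U.length + U.length ≤ (U.length + 1) * (U.length + 1) by
        nlinarith)

omit [DecidableEq ι] [Fintype ι] in
theorem Z0_le (ls : List (List (ι ⊕ A))) (hl : len ls ≤ n)
    (hF : ∀ l ∈ ls, ∀ x, Sum.inr x ∈ l → x ∈ F) : ‖Z0 S g ls‖ ≤ Ω ^ ls.length := by
  induction ls with
  | nil => simp [Z0]
  | cons l ls ih =>
    simp [len] at hl
    rw [Z0, norm_mul, List.length_cons, pow_succ']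
    exact mul_le_mul ((norm_tau_le S _).trans (h.norm_ev l (by omega) (hF l (by simp))))
      (ih (by simp [len]; omega) fun l' hl' => hF l' (List.mem_cons_of_mem _ hl'))
      (norm_nonneg _) (zero_le_one.trans h.one_le)

theorem Z_mean [Nonempty P] (ls : List (List (ι ⊕ A))) (hl : len ls ≤ n)
    (hF : ∀ l ∈ ls, ∀ x, Sum.inr x ∈ l → x ∈ F) :
    mean (fun q : ι → P => Z1 S g (fun i => V (q i)) ls) = 0 ∧
    rmean (fun q : ι → P => ‖Z1 S g (fun i => V (q i)) ls‖ ^ 2) ≤
      4 ^ (len ls + ls.length) * Ω ^ (2 * ls.length) * (δ * Ω ^ 2) ∧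
    ‖mean (fun q : ι → P => Z2 S g (fun i => V (q i)) ls) -
      ((splits ls).map (Z0 S g)).sum‖ ≤
      4 ^ (len ls + ls.length) * Ω ^ (2 * ls.length) * (δ * Ω ^ 2) := by
  set ε := δ * Ω ^ 2 with hε
  have hε0 : 0 ≤ ε := mul_nonneg h.δ_nonneg (sq_nonneg _)
  induction ls with
  | nil => simp [Z1, Z2, splits, mean, rmean, hε0]
  | cons l ls ih =>
    have el : len (l :: ls) = l.length + len ls := by simp [len]
    have hFl := hF l (by simp)
    obtain ⟨i1, i2, i3⟩ := ih (by omega) fun l' hl' => hF l' (List.mem_cons_of_mem _ hl')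
    have hz0 := Z0_le h ls (by omega) fun l' hl' => hF l' (List.mem_cons_of_mem _ hl')
    have he : ‖S.τ (ev g l)‖ ≤ Ω := (norm_tau_le S _).trans (h.norm_ev l (by omega) hFl)
    have a1 : mean (fun q : ι → P => S.τ (T1 g (fun i => V (q i)) l)) = 0 := by
      simp [mean, ← tau_sum, sum_T1 h l, tau_zero]
    have a1s := T1_sq h l [] (by simp; omega) (by simpa using hFl)
    have a2 := T2_mean h l [] (by simp; omega) (by simpa using hFl)
    simp only [ev_nil, one_mul] at a1s a2
    have hΩ := h.one_le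
    have e4 : (4 : ℝ) ^ (len (l :: ls) + (l :: ls).length) * Ω ^ (2 * (l :: ls).length) * ε =
        4 * Ω ^ 2 * (4 ^ l.length * (4 ^ (len ls + ls.length) * (Ω ^ (2 * ls.length) * ε))) := by
      rw [el, List.length_cons, show l.length + len ls + (ls.length + 1) =
        1 + (l.length + (len ls + ls.length)) by omega, pow_add, pow_add,
        show 2 * (ls.length + 1) = 2 + 2 * ls.length by omega, pow_add]
      ring
    rw [e4]
    set X : ℝ := 4 ^ l.length with hX
    set Y : ℝ := 4 ^ (len ls + ls.length) with hY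
    set O : ℝ := Ω ^ (2 * ls.length) with hO
    have hX1 : 1 ≤ X := one_le_pow₀ (by norm_num)
    have hY1 : 1 ≤ Y := one_le_pow₀ (by norm_num)
    have hO1 : 1 ≤ O := one_le_pow₀ hΩ
    have hΩ2 : 1 ≤ Ω ^ 2 := one_le_pow₀ hΩ
    have hOh : Ω ^ ls.length ≤ O := pow_le_pow_right₀ hΩ (by omega)
    refine ⟨?_, ?_, ?_⟩
    · simp only [Z1, mean, Finset.sum_add_distrib, smul_add, ← Finset.mul_sum, ← Finset.sum_mul]
      simp only [mean, smul_eq_mul] at i1 a1 ⊢
      rw [mul_left_comm, i1, ← mul_assoc, a1]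
      simp
    · have hpt : ∀ q : ι → P, ‖Z1 S g (fun i => V (q i)) (l :: ls)‖ ^ 2 ≤
          2 * Ω ^ 2 * ‖Z1 S g (fun i => V (q i)) ls‖ ^ 2 +
            2 * O * ‖S.τ (T1 g (fun i => V (q i)) l)‖ ^ 2 := by
        intro q
        rw [Z1]
        refine (pow_le_pow_left₀ (norm_nonneg _) (norm_add_le _ _) 2).trans ?_
        rw [norm_mul, norm_mul]
        have h1 := pow_le_pow_left₀ (norm_nonneg _) he 2
        have h2 := pow_le_pow_left₀ (norm_nonneg _) hz0 2
        rw [← pow_mul, mul_comm ls.length 2] at h2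
        nlinarith [sq_nonneg (‖S.τ (ev g l)‖ * ‖Z1 S g (fun i => V (q i)) ls‖ -
            ‖S.τ (T1 g (fun i => V (q i)) l)‖ * ‖Z0 S g ls‖),
          mul_le_mul_of_nonneg_right h1 (sq_nonneg ‖Z1 S g (fun i => V (q i)) ls‖),
          mul_le_mul_of_nonneg_right h2 (sq_nonneg ‖S.τ (T1 g (fun i => V (q i)) l)‖)]
      refine (rmean_le hpt).trans ?_
      have e : ∀ (a b : (ι → P) → ℝ) (c d : ℝ), rmean (fun q => c * a q + d * b q) =
          c * rmean a + d * rmean b := fun a b c d => by
        simp [rmean, Finset.sum_add_distrib, ← Finset.mul_sum]; ring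
      rw [e]
      calc _ ≤ 2 * Ω ^ 2 * (Y * O * ε) + 2 * O * (X * ε) := by gcongr
        _ ≤ 2 * Ω ^ 2 * (X * (Y * (O * ε))) + 2 * Ω ^ 2 * (X * (Y * (O * ε))) := by
          refine add_le_add (mul_le_mul_of_nonneg_left ?_ (by positivity)) ?_
          · nlinarith [mul_le_mul_of_nonneg_right hX1 (show 0 ≤ Y * (O * ε) by positivity)]
          · nlinarith [mul_le_mul_of_nonneg_right (one_le_mul_of_one_le_of_one_le hΩ2 hY1)
              (show 0 ≤ O * (X * ε) by positivity)]
        _ = _ := by ring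
    · have hsplit : ((splits (l :: ls)).map (Z0 S g)).sum =
          ((pairs [] l).map fun c => S.τ (ev g c.1) * S.τ (ev g c.2)).sum * Z0 S g ls +
            S.τ (ev g l) * ((splits ls).map (Z0 S g)).sum := by
        rw [← List.sum_map_mul_right, ← List.sum_map_mul_left]
        simp only [splits, List.map_append, List.sum_append, List.map_map, Function.comp_def, Z0,
          mul_assoc]
      rw [hsplit]
      have hcross : ‖mean (fun q : ι → P =>
          S.τ (T1 g (fun i => V (q i)) l) * Z1 S g (fun i => V (q i)) ls)‖ ≤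
          (X * ε + Y * O * ε) / 2 := by
        rw [mean, norm_smul, norm_inv, Complex.norm_natCast]
        refine (mul_le_mul_of_nonneg_left ((norm_sum_le _ _).trans (Finset.sum_le_sum
          (g := fun q : ι → P => (‖S.τ (T1 g (fun i => V (q i)) l)‖ ^ 2 +
            ‖Z1 S g (fun i => V (q i)) ls‖ ^ 2) / 2) fun q _ => ?_)) (by positivity)).trans ?_
        · rw [norm_mul]
          nlinarith [sq_nonneg (‖S.τ (T1 g (fun i => V (q i)) l)‖ -
            ‖Z1 S g (fun i => V (q i)) ls‖)]
        · have : ∀ a b : (ι → P) → ℝ, (Fintype.card (ι → P) : ℝ)⁻¹ * ∑ q, (a q + b q) / 2 =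
              (rmean a + rmean b) / 2 := fun a b => by
            simp [rmean, ← Finset.sum_div, Finset.sum_add_distrib]; ring
          rw [this]
          linarith
      have e : mean (fun q : ι → P => Z2 S g (fun i => V (q i)) (l :: ls)) =
          S.τ (ev g l) * mean (fun q : ι → P => Z2 S g (fun i => V (q i)) ls) +
          mean (fun q : ι → P => S.τ (T1 g (fun i => V (q i)) l) *
            Z1 S g (fun i => V (q i)) ls) +
          mean (fun q : ι → P => S.τ (T2 g (fun i => V (q i)) l)) * Z0 S g ls := by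
        simp only [Z2, mean, smul_eq_mul, Finset.sum_add_distrib, ← Finset.mul_sum,
          ← Finset.sum_mul, mul_add]
        ring
      rw [e]
      set Pl := ((pairs [] l).map fun c => S.τ (ev g c.1) * S.τ (ev g c.2)).sum
      set Sl := ((splits ls).map (Z0 S g)).sum
      set M2 := mean (fun q : ι → P => S.τ (T2 g (fun i => V (q i)) l))
      set Z2m := mean (fun q : ι → P => Z2 S g (fun i => V (q i)) ls)
      set Cr := mean (fun q : ι → P =>
        S.τ (T1 g (fun i => V (q i)) l) * Z1 S g (fun i => V (q i)) ls)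
      have e5 : S.τ (ev g l) * Z2m + Cr + M2 * Z0 S g ls -
          (Pl * Z0 S g ls + S.τ (ev g l) * Sl) =
          S.τ (ev g l) * (Z2m - Sl) + Cr + (M2 - Pl) * Z0 S g ls := by ring
      rw [e5]
      refine (norm_add₃_le).trans ?_
      rw [norm_mul, norm_mul]
      have t1 := mul_le_mul he i3 (norm_nonneg _) (zero_le_one.trans hΩ)
      have t3 := mul_le_mul a2 hz0 (norm_nonneg _) (by positivity)
      rw [← hε] at t3
      have hnn : ((l.length * l.length : ℕ) : ℝ) ≤ X := by
        rw [hX]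
        have : l.length * l.length ≤ 4 ^ l.length := by
          have := Nat.lt_two_pow_self (n := l.length)
          calc l.length * l.length ≤ 2 ^ l.length * 2 ^ l.length := by gcongr
            _ = 4 ^ l.length := by rw [← mul_pow]; norm_num
        exact_mod_cast this
      have f1 : Ω * (Y * O * ε) ≤ Ω ^ 2 * (X * (Y * (O * ε))) := by
        calc Ω * (Y * O * ε) = Ω * (1 * (Y * (O * ε))) := by ring
          _ ≤ Ω ^ 2 * (X * (Y * (O * ε))) :=
            mul_le_mul (by nlinarith) (mul_le_mul_of_nonneg_right hX1 (by positivity))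
              (by positivity) (by positivity)
      have f2 : X * ε ≤ Ω ^ 2 * (X * (Y * (O * ε))) := by
        calc X * ε = 1 * (X * (1 * (1 * ε))) := by ring
          _ ≤ Ω ^ 2 * (X * (Y * (O * ε))) := by gcongr
      have f3 : Y * O * ε ≤ Ω ^ 2 * (X * (Y * (O * ε))) := by
        calc Y * O * ε = 1 * (1 * (Y * (O * ε))) := by ring
          _ ≤ Ω ^ 2 * (X * (Y * (O * ε))) := by gcongr
      have f4 : ((l.length * l.length : ℕ) : ℝ) * ε * Ω ^ ls.length ≤
          Ω ^ 2 * (X * (Y * (O * ε))) := by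
        calc _ ≤ X * ε * O := by gcongr
          _ = 1 * (X * (1 * (O * ε))) := by ring
          _ ≤ Ω ^ 2 * (X * (Y * (O * ε))) := by gcongr
      have f0 : 0 ≤ Ω ^ 2 * (X * (Y * (O * ε))) := by positivity
      linarith

/-- The step. -/
theorem step [Nonempty P] (ls : List (List (ι ⊕ A))) (hl : len ls ≤ n)
    (hF : ∀ l ∈ ls, ∀ x, Sum.inr x ∈ l → x ∈ F) {m : ℕ} (hm : 1 ≤ m) {β : ℝ} (hβ : 1 ≤ β)
    (hn : n ≤ 2 ^ (m + 1)) (hg : ∀ i, Good S m β (g i)) (hv : ∀ p, Good S m β (V p))
    (hx : ∀ x ∈ F, Good S m β x) {s : ℝ} (hs0 : 0 ≤ s) (hs : s ≤ 1) :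
    ‖mean (fun q : ι → P => Z0 S (fun i => g i + (s : ℂ) • V (q i)) ls) - Z0 S g ls -
      (s : ℂ) ^ 2 * ((splits ls).map (Z0 S g)).sum‖ ≤
      s ^ 3 * (16 ^ (len ls + ls.length) * β ^ len ls) +
        s ^ 2 * (4 ^ (len ls + ls.length) * Ω ^ (2 * ls.length) * (δ * Ω ^ 2)) := by
  obtain ⟨h1, -, h2⟩ := Z_mean h ls hl hF
  have hns : ‖(s : ℂ)‖ = s := by rw [Complex.norm_real, Real.norm_eq_abs, abs_of_nonneg hs0]
  have e : mean (fun q : ι → P => Z0 S (fun i => g i + (s : ℂ) • V (q i)) ls) - Z0 S g ls -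
      (s : ℂ) ^ 2 * ((splits ls).map (Z0 S g)).sum =
      (s : ℂ) * mean (fun q : ι → P => Z1 S g (fun i => V (q i)) ls) +
      (s : ℂ) ^ 2 * (mean (fun q : ι → P => Z2 S g (fun i => V (q i)) ls) -
        ((splits ls).map (Z0 S g)).sum) +
      (s : ℂ) ^ 3 * mean (fun q : ι → P => Z3 S g (fun i => V (q i)) s ls) := by
    have hc : (Fintype.card (ι → P) : ℂ) ≠ 0 := Nat.cast_ne_zero.2 Fintype.card_ne_zero
    simp only [Z_expand, mean, smul_eq_mul, Finset.sum_add_distrib, ← Finset.mul_sum, mul_add,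
      Finset.sum_const, Finset.card_univ, nsmul_eq_mul, inv_mul_cancel_left₀ hc]
    ring
  rw [e, h1, mul_zero, zero_add, add_comm (s ^ 3 * _)]
  refine (norm_add_le _ _).trans ?_
  simp only [norm_mul, norm_pow, hns]
  refine add_le_add (mul_le_mul_of_nonneg_left h2 (by positivity))
    (mul_le_mul_of_nonneg_left ?_ (by positivity))
  rw [mean, norm_smul, norm_inv, Complex.norm_natCast, inv_mul_le_iff₀ (by
    exact_mod_cast Fintype.card_pos)]
  refine (norm_sum_le _ _).trans ((Finset.sum_le_card_nsmul _ _ _ fun q _ =>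
    (Z_bound S hm hβ hg (fun i => hv (q i)) (hns.trans_le hs) ls
      (fun l hl x hx' => hx x (hF l hl x hx')) (hl.trans hn)).2.2.2).trans ?_)
  simp

end VP085.Carrier
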