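import Vale.Agent.P085.Defs

/-!
P085, carriers: the Wick value of a word. Summed over all pairs of equal letters, the value of the
two parts is half the number of letters times the value of the word.
-/

namespace VP085.Carrier

variable {ι B : Type} [DecidableEq ι]

/-- The decompositions of a word at an occurrence of the letter `i`. -/
def cuts (i : ι) : List (ι ⊕ B) → List (List (ι ⊕ B) × List (ι ⊕ B))
  | [] => []
  | Sum.inr x :: U => (cuts i U).map fun c => (Sum.inr x :: c.1, c.2)
  | Sum.inl j :: U =>
    (if j = i then [([], U)] else []) ++ (cuts i U).map fun c => (Sum.inl j :: c.1, c.2)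

/-- The pairs of equal letters in the second word, as the part inside and the part outside. -/
def pairs : List (ι ⊕ B) → List (ι ⊕ B) → List (List (ι ⊕ B) × List (ι ⊕ B))
  | _, [] => []
  | p, Sum.inr x :: U => pairs (p ++ [Sum.inr x]) U
  | p, Sum.inl j :: U =>
    ((cuts j U).map fun c => (c.1, p ++ c.2)) ++ pairs (p ++ [Sum.inl j]) U

/-- The number of semicircular letters. -/
def nl : List (ι ⊕ B) → ℕ
  | [] => 0
  | Sum.inr _ :: U => nl U
  | Sum.inl _ :: U => nl U + 1

/-- All splittings of a list of words at a pair of equal letters of one word. -/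
def splits : List (List (ι ⊕ B)) → List (List (List (ι ⊕ B)))
  | [] => []
  | l :: ls => ((pairs [] l).map fun c => c.1 :: c.2 :: ls) ++ (splits ls).map fun s => l :: s

omit [DecidableEq ι] in
@[simp] theorem nl_append (U V : List (ι ⊕ B)) : nl (U ++ V) = nl U + nl V := by
  induction U with
  | nil => simp [nl]
  | cons z U ih => cases z <;> simp [nl, ih] <;> omega

omit [DecidableEq ι] in
theorem nl_le_length (U : List (ι ⊕ B)) : nl U ≤ U.length := by
  induction U with
  | nil => simp [nl]
  | cons z U ih => cases z <;> simp [nl] <;> omega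

omit [DecidableEq ι] in
theorem exists_first (l : List (ι ⊕ B)) (h : nl l ≠ 0) :
    ∃ p i U, l = p ++ Sum.inl i :: U ∧ nl p = 0 := by
  induction l with
  | nil => simp [nl] at h
  | cons z l ih =>
    cases z with
    | inl i => exact ⟨[], i, l, rfl, rfl⟩
    | inr x =>
      obtain ⟨p, i, U, e, hp⟩ := ih (by simpa [nl] using h)
      exact ⟨Sum.inr x :: p, i, U, by rw [e]; rfl, by simpa [nl] using hp⟩

theorem cuts_append (i : ι) (U V : List (ι ⊕ B)) :
    cuts i (U ++ V) = ((cuts i U).map fun c => (c.1, c.2 ++ V)) ++
      (cuts i V).map fun c => (U ++ c.1, c.2) := by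
  induction U with
  | nil => simp [cuts]
  | cons z U ih =>
    cases z with
    | inl j =>
      by_cases h : j = i <;> simp [cuts, h, ih, List.map_map, Function.comp_def]
    | inr x => simp [cuts, ih, List.map_map, Function.comp_def]

theorem mem_cuts {i : ι} {U : List (ι ⊕ B)} {c : List (ι ⊕ B) × List (ι ⊕ B)}
    (hc : c ∈ cuts i U) : U = c.1 ++ Sum.inl i :: c.2 := by
  induction U generalizing c with
  | nil => simp [cuts] at hc
  | cons z U ih =>
    cases z with
    | inr x =>
      simp only [cuts, List.mem_map] at hc
      obtain ⟨c', hc', rfl⟩ := hc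
      simp [← ih hc']
    | inl j =>
      simp only [cuts, List.mem_append, List.mem_map] at hc
      rcases hc with hc | ⟨c', hc', rfl⟩
      · split_ifs at hc with h
        · rw [List.mem_singleton] at hc
          subst hc h
          rfl
        · simp at hc
      · simp [← ih hc']

theorem mem_pairs {p U : List (ι ⊕ B)} {c : List (ι ⊕ B) × List (ι ⊕ B)}
    (hc : c ∈ pairs p U) :
    nl c.1 + nl c.2 + 2 = nl p + nl U ∧ c.1.length + c.2.length + 2 = p.length + U.length ∧
      ∀ z, z ∈ c.1 ∨ z ∈ c.2 → z ∈ p ∨ z ∈ U := by
  induction U generalizing p c with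
  | nil => simp [pairs] at hc
  | cons z U ih =>
    cases z with
    | inr x =>
      obtain ⟨h1, h2, h3⟩ := ih (show c ∈ pairs (p ++ [Sum.inr x]) U from hc)
      refine ⟨by simpa [nl] using h1, by simp at h2 ⊢; omega, fun y hy => ?_⟩
      rcases h3 y hy with h | h
      · rcases List.mem_append.1 h with h | h
        · exact Or.inl h
        · exact Or.inr (by simp_all)
      · exact Or.inr (List.mem_cons_of_mem _ h)
    | inl j =>
      simp only [pairs, List.mem_append, List.mem_map] at hc
      rcases hc with ⟨c', hc', rfl⟩ | hc
      · have e := mem_cuts hc'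
        refine ⟨by rw [e]; simp [nl]; omega, by rw [e]; simp; omega, fun y hy => ?_⟩
        rcases hy with hy | hy
        · exact Or.inr (List.mem_cons_of_mem _ (by rw [e]; exact List.mem_append_left _ hy))
        · rcases List.mem_append.1 hy with hy | hy
          · exact Or.inl hy
          · exact Or.inr (List.mem_cons_of_mem _ (by
              rw [e]; exact List.mem_append_right _ (List.mem_cons_of_mem _ hy)))
      · obtain ⟨h1, h2, h3⟩ := ih hc
        refine ⟨by simp [nl] at h1 ⊢; omega, by simp at h2 ⊢; omega, fun y hy => ?_⟩
        rcases h3 y hy with h | h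
        · rcases List.mem_append.1 h with h | h
          · exact Or.inl h
          · exact Or.inr (by simp_all)
        · exact Or.inr (List.mem_cons_of_mem _ h)

theorem pairs_eq_nil (p U : List (ι ⊕ B)) (h : nl U = 0) : pairs p U = [] := by
  induction U generalizing p with
  | nil => rfl
  | cons z U ih =>
    cases z with
    | inl j => simp [nl] at h
    | inr x => exact ih _ (by simpa [nl] using h)

theorem pairs_shift (r p U : List (ι ⊕ B)) (hp : nl p = 0) :
    pairs r (p ++ U) = pairs (r ++ p) U := by
  induction p generalizing r with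
  | nil => simp
  | cons z p ih =>
    cases z with
    | inl j => simp [nl] at hp
    | inr x =>
      rw [List.cons_append, pairs, ih _ (by simpa [nl] using hp)]
      simp

theorem cuts_length_le (i : ι) (U : List (ι ⊕ B)) : (cuts i U).length ≤ U.length := by
  induction U with
  | nil => simp [cuts]
  | cons z U ih =>
    cases z with
    | inr x => simp [cuts]; omega
    | inl j => by_cases h : j = i <;> simp [cuts, h] <;> omega

theorem pairs_length_le (p U : List (ι ⊕ B)) : (pairs p U).length ≤ U.length * U.length := by
  induction U generalizing p with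
  | nil => simp [pairs]
  | cons z U ih =>
    cases z with
    | inr x =>
      have := ih (p ++ [Sum.inr x])
      simp only [pairs, List.length_cons]
      nlinarith
    | inl j =>
      have h1 := cuts_length_le j U
      have h2 := ih (p ++ [Sum.inl j])
      simp only [pairs, List.length_append, List.length_map, List.length_cons]
      nlinarith

theorem cuts_cuts {R : Type} [AddCommMonoid R] (i j : ι)
    (f : List (ι ⊕ B) → List (ι ⊕ B) → List (ι ⊕ B) → R) (U : List (ι ⊕ B)) :
    ((cuts i U).map fun c => ((cuts j c.1).map fun e => f e.1 e.2 c.2).sum).sum =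
      ((cuts j U).map fun c => ((cuts i c.2).map fun e => f c.1 e.1 e.2).sum).sum := by
  induction U generalizing f with
  | nil => simp [cuts]
  | cons z U ih =>
    cases z with
    | inr x =>
      simp only [cuts, List.map_map, Function.comp_def]
      exact ih fun a b c => f (Sum.inr x :: a) b c
    | inl k =>
      have h := ih fun a b c => f (Sum.inl k :: a) b c
      simp only [cuts, List.map_append, List.sum_append, List.map_map, Function.comp_def,
        List.sum_map_add]
      rw [h]
      rcases eq_or_ne k i with rfl | hi
      · rcases eq_or_ne k j with rfl | hj <;> simp [*, cuts]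
      · rcases eq_or_ne k j with rfl | hj <;> simp [*, cuts]

variable (φ : List B → ℂ)

/-- The Wick value. -/
noncomputable def wk (l : List (ι ⊕ B)) : ℂ := wick φ l.length l

theorem sum_range_cuts (f : List (ι ⊕ B) → List (ι ⊕ B) → ℂ) (i : ι) (U : List (ι ⊕ B)) :
    ∑ k ∈ Finset.range U.length,
        (if (U[k]? >>= Sum.getLeft?) = some i then f (U.take k) (U.drop (k + 1)) else 0) =
      ((cuts i U).map fun c => f c.1 c.2).sum := by
  induction U generalizing f with
  | nil => simp [cuts]
  | cons z U ih =>
    rw [List.length_cons, Finset.sum_range_succ']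
    simp only [List.getElem?_cons_succ, List.take_succ_cons, List.drop_succ_cons,
      List.getElem?_cons_zero, List.take_zero, List.drop_zero]
    rw [ih fun a b => f (z :: a) b]
    cases z with
    | inr x => simp [cuts, Function.comp_def]
    | inl j =>
      by_cases h : j = i <;> simp [cuts, h, Function.comp_def, add_comm]

omit [DecidableEq ι] in
theorem dropWhile_right {p : List (ι ⊕ B)} (hp : nl p = 0) (U : List (ι ⊕ B)) :
    (p ++ U).dropWhile (fun z => z.isRight) = U.dropWhile (fun z => z.isRight) ∧
      (p ++ U).takeWhile (fun z => z.isRight) = p ++ U.takeWhile (fun z => z.isRight) := by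
  induction p with
  | nil => simp
  | cons z p ih =>
    cases z with
    | inl j => simp [nl] at hp
    | inr x =>
      obtain ⟨e1, e2⟩ := ih (by simpa [nl] using hp)
      constructor <;> simp [List.dropWhile_cons, List.takeWhile_cons, e1, e2]

theorem wick_right (fuel : ℕ) {l : List (ι ⊕ B)} (h : nl l = 0) :
    wick φ fuel l = φ (l.filterMap Sum.getRight?) := by
  cases fuel with
  | zero => rfl
  | succ f =>
    have e := (dropWhile_right h ([] : List (ι ⊕ B))).1
    rw [List.append_nil, List.dropWhile_nil] at e
    rw [wick, e]

theorem wick_split (fuel : ℕ) {p : List (ι ⊕ B)} (hp : nl p = 0) (i : ι) (U : List (ι ⊕ B)) :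
    wick φ (fuel + 1) (p ++ Sum.inl i :: U) =
      ((cuts i U).map fun c => wick φ fuel c.1 * wick φ fuel (p ++ c.2)).sum := by
  obtain ⟨e1, e2⟩ := dropWhile_right hp (Sum.inl i :: U)
  rw [wick, e1, e2]
  simp only [List.dropWhile_cons, List.takeWhile_cons, Sum.isRight_inl, Bool.false_eq_true,
    if_false, List.append_nil]
  exact sum_range_cuts (fun a b => wick φ fuel a * wick φ fuel (p ++ b)) i U

theorem wick_fuel (fuel : ℕ) (l : List (ι ⊕ B)) (h : l.length ≤ fuel) :
    wick φ fuel l = wk φ l := by
  induction hn : l.length using Nat.strong_induction_on generalizing l fuel with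
  | _ n IH =>
    subst hn
    by_cases h0 : nl l = 0
    · rw [wk, wick_right φ _ h0, wick_right φ _ h0]
    obtain ⟨p, i, U, rfl, hp⟩ := exists_first l h0
    obtain ⟨f, rfl⟩ : ∃ f, fuel = f + 1 := ⟨fuel - 1, by simp at h; omega⟩
    obtain ⟨g, hg⟩ : ∃ g, (p ++ Sum.inl i :: U).length = g + 1 :=
      ⟨p.length + U.length, by simp; omega⟩
    rw [wk, hg, wick_split φ f hp, wick_split φ g hp]
    congr 1
    refine List.map_congr_left fun c hc => ?_
    have e := congrArg List.length (mem_cuts hc)
    simp at e hg h
    congr 1
    · rw [IH _ (by simp; omega) f c.1 (by omega) rfl, IH _ (by simp; omega) g c.1 (by omega) rfl]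
    · rw [IH _ (by simp; omega) f (p ++ c.2) (by simp; omega) rfl,
        IH _ (by simp; omega) g (p ++ c.2) (by simp; omega) rfl]

theorem wk_right {l : List (ι ⊕ B)} (h : nl l = 0) : wk φ l = φ (l.filterMap Sum.getRight?) :=
  wick_right φ _ h

theorem wk_split {p : List (ι ⊕ B)} (hp : nl p = 0) (i : ι) (U : List (ι ⊕ B)) :
    wk φ (p ++ Sum.inl i :: U) =
      ((cuts i U).map fun c => wk φ c.1 * wk φ (p ++ c.2)).sum := by
  rw [← wick_fuel φ ((p ++ Sum.inl i :: U).length + 1) _ (Nat.le_succ _), wick_split φ _ hp]
  congr 1
  refine List.map_congr_left fun c hc => ?_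
  have e := congrArg List.length (mem_cuts hc)
  simp at e
  rw [wick_fuel φ _ _ (by simp; omega), wick_fuel φ _ _ (by simp; omega)]

/-- The sum over pairs of the product of the values of the parts. -/
noncomputable def psum (p U : List (ι ⊕ B)) : ℂ :=
  ((pairs p U).map fun c => wk φ c.1 * wk φ c.2).sum

theorem psum_cons_right (p : List (ι ⊕ B)) (x : B) (U : List (ι ⊕ B)) :
    psum φ p (Sum.inr x :: U) = psum φ (p ++ [Sum.inr x]) U := rfl

theorem psum_cons_left (p : List (ι ⊕ B)) (j : ι) (U : List (ι ⊕ B)) :
    psum φ p (Sum.inl j :: U) = ((cuts j U).map fun c => wk φ c.1 * wk φ (p ++ c.2)).sum +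
      psum φ (p ++ [Sum.inl j]) U := by
  simp [psum, pairs, List.map_map, Function.comp_def]

/-- The pairs after a first letter, by the first expansion. -/
theorem psum_first {p : List (ι ⊕ B)} (hp : nl p = 0) (i : ι) (U q : List (ι ⊕ B)) :
    psum φ (p ++ Sum.inl i :: q) U =
      ((cuts i U).map fun c =>
        psum φ q c.1 * wk φ (p ++ c.2) + wk φ (q ++ c.1) * psum φ p c.2).sum +
      ((cuts i q).map fun c => wk φ c.1 * psum φ (p ++ c.2) U).sum := by
  induction U generalizing q with
  | nil => simp [cuts, psum, pairs]
  | cons z U ih =>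
    cases z with
    | inr x =>
      rw [psum_cons_right, List.append_assoc, List.cons_append, ih]
      simp [cuts, List.map_map, Function.comp_def, psum_cons_right, cuts_append]
    | inl j =>
      rw [psum_cons_left, List.append_assoc p (Sum.inl i :: q) [Sum.inl j], List.cons_append, ih]
      have hexp : ∀ b : List (ι ⊕ B), wk φ ((p ++ Sum.inl i :: q) ++ b) =
          ((cuts i q).map fun e => wk φ e.1 * wk φ (p ++ (e.2 ++ b))).sum +
            ((cuts i b).map fun e => wk φ (q ++ e.1) * wk φ (p ++ e.2)).sum := by
        intro b
        rw [List.append_assoc, List.cons_append, wk_split φ hp, cuts_append]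
        simp [List.map_map, Function.comp_def]
      simp only [hexp, mul_add, List.sum_map_add, ← List.sum_map_mul_left]
      rw [← cuts_cuts i j fun a b c => wk φ a * (wk φ (q ++ b) * wk φ (p ++ c))]
      have hq : ((cuts j U).map fun c => ((cuts i q).map fun e =>
            wk φ c.1 * (wk φ e.1 * wk φ (p ++ (e.2 ++ c.2)))).sum).sum =
          ((cuts i q).map fun e => wk φ e.1 * ((cuts j U).map fun c =>
            wk φ c.1 * wk φ (p ++ e.2 ++ c.2)).sum).sum := by
        simp only [← List.sum_map_mul_left, List.append_assoc]
        induction cuts j U with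
        | nil => simp
        | cons c cs ihc =>
          simp only [List.map_cons, List.sum_cons, List.sum_map_add, ihc]
          congr 1
          exact congrArg List.sum (List.map_congr_left fun e _ => by ring)
      have hA : ∀ c : List (ι ⊕ B) × List (ι ⊕ B), ((cuts j c.1).map fun e =>
          wk φ e.1 * (wk φ (q ++ e.2) * wk φ (p ++ c.2))).sum =
          ((cuts j c.1).map fun e => wk φ e.1 * wk φ (q ++ e.2)).sum * wk φ (p ++ c.2) := fun c => by
        rw [← List.sum_map_mul_right]
        exact congrArg List.sum (List.map_congr_left fun e _ => by ring)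
      rw [hq]
      simp only [hA]
      by_cases h : j = i <;>
        simp [h, cuts, cuts_append, List.map_map, Function.comp_def, psum_cons_left, mul_add,
          add_mul, List.append_assoc, List.sum_map_add, ← List.sum_map_mul_left] <;>
        simp [psum, pairs] <;> ring

/-- Summed over pairs, the parts give half the number of letters times the value. -/
theorem psum_eq (l : List (ι ⊕ B)) : psum φ [] l = (nl l : ℂ) / 2 * wk φ l := by
  induction hn : l.length using Nat.strong_induction_on generalizing l with
  | _ n IH =>
    subst hn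
    by_cases h0 : nl l = 0
    · simp [psum, pairs_eq_nil [] l h0, h0]
    obtain ⟨p, i, U, rfl, hp⟩ := exists_first l h0
    have e1 : psum φ [] (p ++ Sum.inl i :: U) = psum φ p (Sum.inl i :: U) := by
      simp [psum, pairs_shift [] p (Sum.inl i :: U) hp]
    rw [e1, psum_cons_left, psum_first φ hp, wk_split φ hp]
    simp only [cuts, List.map_nil, List.sum_nil, add_zero, List.nil_append,
      ← List.sum_map_mul_left, ← List.sum_map_add]
    refine congrArg List.sum (List.map_congr_left fun c hc => ?_)
    have e := mem_cuts hc
    have el := congrArg List.length e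
    have en : nl U = nl c.1 + nl c.2 + 1 := by rw [e]; simp [nl]; omega
    simp at el
    have h2 : psum φ p c.2 = psum φ [] (p ++ c.2) := by simp [psum, pairs_shift [] p c.2 hp]
    rw [h2, IH c.1.length (by simp; omega) c.1 rfl,
      IH (p ++ c.2).length (by simp; omega) (p ++ c.2) rfl]
    simp [nl, hp, en]
    ring

theorem wk_odd (l : List (ι ⊕ B)) (h : nl l % 2 = 1) : wk φ l = 0 := by
  induction hn : l.length using Nat.strong_induction_on generalizing l with
  | _ n IH =>
    subst hn
    obtain ⟨p, i, U, rfl, hp⟩ := exists_first l (by omega)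
    rw [wk_split φ hp]
    refine List.sum_eq_zero fun x hx => ?_
    obtain ⟨c, hc, rfl⟩ := List.mem_map.1 hx
    have e := mem_cuts hc
    have el := congrArg List.length e
    have en : nl U = nl c.1 + nl c.2 + 1 := by rw [e]; simp [nl]; omega
    simp [nl, hp, en] at h el
    rcases Nat.mod_two_eq_zero_or_one (nl c.1) with h1 | h1
    · rw [IH (p ++ c.2).length (by simp; omega) (p ++ c.2) (by simp [hp]; omega) rfl, mul_zero]
    · rw [IH c.1.length (by simp; omega) c.1 h1 rfl, zero_mul]

/-- The number of semicircular letters in a list of words. -/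
def nls (ls : List (List (ι ⊕ B))) : ℕ := (ls.map nl).sum

/-- The total length of a list of words. -/
def len (ls : List (List (ι ⊕ B))) : ℕ := (ls.map List.length).sum

/-- The product of the values. -/
noncomputable def wks (ls : List (List (ι ⊕ B))) : ℂ := (ls.map (wk φ)).prod

theorem mem_splits {ls s : List (List (ι ⊕ B))} (hs : s ∈ splits ls) :
    nls s + 2 = nls ls ∧ len s + 2 = len ls ∧
      ∀ l ∈ s, ∀ z ∈ l, ∃ l' ∈ ls, z ∈ l' := by
  induction ls generalizing s with
  | nil => simp [splits] at hs
  | cons l ls ih =>
    simp only [splits, List.mem_append, List.mem_map] at hs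
    rcases hs with ⟨c, hc, rfl⟩ | ⟨t, ht, rfl⟩
    · obtain ⟨h1, h2, h3⟩ := mem_pairs hc
      refine ⟨by simp [nls, nl] at h1 ⊢; omega, by simp [len] at h2 ⊢; omega, ?_⟩
      intro l' hl' z hz
      simp only [List.mem_cons] at hl'
      rcases hl' with rfl | rfl | hl'
      · exact ⟨l, by simp, by simpa using h3 z (Or.inl hz)⟩
      · exact ⟨l, by simp, by simpa using h3 z (Or.inr hz)⟩
      · exact ⟨l', by simp [hl'], hz⟩
    · obtain ⟨h1, h2, h3⟩ := ih ht
      refine ⟨by simp [nls] at h1 ⊢; omega, by simp [len] at h2 ⊢; omega, ?_⟩
      intro l' hl' z hz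
      rcases List.mem_cons.1 hl' with rfl | hl'
      · exact ⟨_, by simp, hz⟩
      · obtain ⟨l'', h4, h5⟩ := h3 l' hl' z hz
        exact ⟨l'', by simp [h4], h5⟩

theorem splits_length_le (ls : List (List (ι ⊕ B))) : (splits ls).length ≤ len ls * len ls := by
  induction ls with
  | nil => simp [splits]
  | cons l ls ih =>
    have := pairs_length_le ([] : List (ι ⊕ B)) l
    simp only [splits, len, List.length_append, List.length_map, List.map_cons, List.sum_cons] at *
    have h0 := Nat.zero_le (2 * l.length * (List.map List.length ls).sum)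
    nlinarith

theorem sum_splits (ls : List (List (ι ⊕ B))) :
    ((splits ls).map (wks φ)).sum = (nls ls : ℂ) / 2 * wks φ ls := by
  induction ls with
  | nil => simp [splits, nls]
  | cons l ls ih =>
    have e1 : ((pairs [] l).map fun c => wks φ (c.1 :: c.2 :: ls)).sum =
        psum φ [] l * wks φ ls := by
      rw [psum, ← List.sum_map_mul_right]
      exact congrArg List.sum (List.map_congr_left fun c _ => by simp [wks]; ring)
    have e2 : ((splits ls).map fun s => wks φ (l :: s)).sum =
        wk φ l * ((splits ls).map (wks φ)).sum := by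
      rw [← List.sum_map_mul_left]
      exact congrArg List.sum (List.map_congr_left fun c _ => by simp [wks])
    simp only [splits, List.map_append, List.sum_append, List.map_map, Function.comp_def]
    rw [e1, e2, ih, psum_eq]
    simp [nls, wks]
    ring

theorem wks_odd (ls : List (List (ι ⊕ B))) (h : nls ls % 2 = 1) : wks φ ls = 0 := by
  induction ls with
  | nil => simp [nls] at h
  | cons l ls ih =>
    simp [nls] at h
    rcases Nat.mod_two_eq_zero_or_one (nl l) with h1 | h1
    · have := ih (by simp [nls]; omega)
      simp [wks] at this ⊢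
      exact Or.inr this
    · simp [wks, wk_odd φ l h1]

end VP085.Carrier
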